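import Vale.Agent.P299.Sect
import Mathlib

/-! Sections on a product manifold. -/

open scoped Manifold ContDiff Topology
open Set

namespace Vale.Agent.P299

variable {E₁ : Type*} [NormedAddCommGroup E₁] [NormedSpace ℂ E₁]
variable {E₂ : Type*} [NormedAddCommGroup E₂] [NormedSpace ℂ E₂]
variable {M : Type*} [TopologicalSpace M] [ChartedSpace E₁ M]
variable {F : Type*} [TopologicalSpace F] [ChartedSpace E₂ F]

/-- The product charts, with the model space written as `E₁ × E₂`. -/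
@[reducible] def prodCS (E₁ M E₂ F : Type*) [NormedAddCommGroup E₁] [NormedAddCommGroup E₂]
    [TopologicalSpace M] [TopologicalSpace F] [ChartedSpace E₁ M] [ChartedSpace E₂ F] :
    ChartedSpace (E₁ × E₂) (M × F) := prodChartedSpace E₁ M E₂ F

attribute [local instance] prodCS

theorem prod_isManifold [IsManifold 𝓘(ℂ, E₁) ω M] [IsManifold 𝓘(ℂ, E₂) ω F] :
    IsManifold 𝓘(ℂ, E₁ × E₂) ω (M × F) := by
  rw [modelWithCornersSelf_prod]
  exact (inferInstance : IsManifold (𝓘(ℂ, E₁).prod 𝓘(ℂ, E₂)) ω (M × F))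

/-- The Jacobian of a product map in product charts. -/
theorem jac_prodMap [FiniteDimensional ℂ E₁] [FiniteDimensional ℂ E₂]
    [IsManifold 𝓘(ℂ, E₁) ω M] [IsManifold 𝓘(ℂ, E₂) ω F]
    {g : M → M} {h : F → F} {x : M} {y : F}
    (hg : ContMDiffAt 𝓘(ℂ, E₁) 𝓘(ℂ, E₁) ω g x) (hh : ContMDiffAt 𝓘(ℂ, E₂) 𝓘(ℂ, E₂) ω h y)
    {e₁ e₁' : OpenPartialHomeomorph M E₁} (he₁ : e₁ ∈ atlas E₁ M) (he₁' : e₁' ∈ atlas E₁ M)
    {e₂ e₂' : OpenPartialHomeomorph F E₂} (he₂ : e₂ ∈ atlas E₂ F) (he₂' : e₂' ∈ atlas E₂ F)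
    (hx : x ∈ e₁.source) (hy : y ∈ e₂.source) (hx' : g x ∈ e₁'.source)
    (hy' : h y ∈ e₂'.source) :
    jac (E := E₁ × E₂) (Prod.map g h) (e₁.prod e₂) (e₁'.prod e₂') (x, y) =
      jac g e₁ e₁' x * jac h e₂ e₂' y := by
  have : CompleteSpace E₁ := FiniteDimensional.complete ℂ E₁
  have : CompleteSpace E₂ := FiniteDimensional.complete ℂ E₂
  have h1 := (analyticAt_chart hg he₁ he₁' hx hx').differentiableAt.hasFDerivAt
  have h2 := (analyticAt_chart hh he₂ he₂' hy hy').differentiableAt.hasFDerivAt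
  have h3 := HasFDerivAt.prodMap (e₁ x, e₂ y) h1 h2
  have h4 : (e₁'.prod e₂') ∘ (Prod.map g h) ∘ (e₁.prod e₂).symm =
      Prod.map (e₁' ∘ g ∘ e₁.symm) (e₂' ∘ h ∘ e₂.symm) := rfl
  unfold jac
  rw [h4]
  have h5 : (e₁.prod e₂) (x, y) = (e₁ x, e₂ y) := rfl
  rw [h5, h3.fderiv]
  exact LinearMap.det_prodMap _ _

theorem jac_id_prod [FiniteDimensional ℂ E₁] [FiniteDimensional ℂ E₂]
    [IsManifold 𝓘(ℂ, E₁) ω M] [IsManifold 𝓘(ℂ, E₂) ω F] {x : M} {y : F}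
    {e₁ e₁' : OpenPartialHomeomorph M E₁} (he₁ : e₁ ∈ atlas E₁ M) (he₁' : e₁' ∈ atlas E₁ M)
    {e₂ e₂' : OpenPartialHomeomorph F E₂} (he₂ : e₂ ∈ atlas E₂ F) (he₂' : e₂' ∈ atlas E₂ F)
    (hx : x ∈ e₁.source) (hy : y ∈ e₂.source) (hx' : x ∈ e₁'.source) (hy' : y ∈ e₂'.source) :
    jac (E := E₁ × E₂) id (e₁.prod e₂) (e₁'.prod e₂') (x, y) =
      jac id e₁ e₁' x * jac id e₂ e₂' y := by
  have := jac_prodMap (g := id) (h := id) contMDiffAt_id contMDiffAt_id he₁ he₁' he₂ he₂' hx hy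
    hx' hy'
  rwa [Prod.map_id] at this

omit [NormedSpace ℂ E₁] [NormedSpace ℂ E₂] in
theorem mem_atlas_prod {e : OpenPartialHomeomorph (M × F) (E₁ × E₂)} :
    e ∈ atlas (E₁ × E₂) (M × F) ↔ ∃ e₁ ∈ atlas E₁ M, ∃ e₂ ∈ atlas E₂ F, e₁.prod e₂ = e :=
  Iff.rfl

variable [FiniteDimensional ℂ E₁] [FiniteDimensional ℂ E₂]
    [IsManifold 𝓘(ℂ, E₁) ω M] [IsManifold 𝓘(ℂ, E₂) ω F]

variable {k : ℕ}

/-- the coefficient of the exterior product -/
noncomputable def boxCoeff (η : AntiSection E₁ M k) (s : AntiSection E₂ F k)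
    (e : OpenPartialHomeomorph (M × F) (E₁ × E₂)) (z : M × F) : ℂ :=
  η.coeff (chartAt E₁ z.1) z.1 * s.coeff (chartAt E₂ z.2) z.2 *
    jac id ((chartAt E₁ z.1).prod (chartAt E₂ z.2)) e z ^ k

theorem boxCoeff_prod (η : AntiSection E₁ M k) (s : AntiSection E₂ F k)
    {e₁ : OpenPartialHomeomorph M E₁} (he₁ : e₁ ∈ atlas E₁ M)
    {e₂ : OpenPartialHomeomorph F E₂} (he₂ : e₂ ∈ atlas E₂ F) {x : M} {y : F}
    (hx : x ∈ e₁.source) (hy : y ∈ e₂.source) :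
    boxCoeff η s (e₁.prod e₂) (x, y) = η.coeff e₁ x * s.coeff e₂ y := by
  unfold boxCoeff
  rw [jac_id_prod (chart_mem_atlas _ _) he₁ (chart_mem_atlas _ _) he₂ (mem_chart_source _ _)
    (mem_chart_source _ _) hx hy, η.compat _ (chart_mem_atlas _ x) e₁ he₁ x
      ⟨mem_chart_source _ _, hx⟩, s.compat _ (chart_mem_atlas _ y) e₂ he₂ y
      ⟨mem_chart_source _ _, hy⟩]
  ring

/-- The exterior product of sections of `-kK_M` and `-kK_F`, a section of `-kK_{M × F}`. -/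
noncomputable def AntiSection.box (η : AntiSection E₁ M k) (s : AntiSection E₂ F k) :
    AntiSection (E₁ × E₂) (M × F) k where
  coeff := boxCoeff η s
  holo := by
    rintro _ ⟨e₁, he₁, e₂, he₂, rfl⟩ z hz
    have hz1 : z.1 ∈ e₁.target := hz.1
    have hz2 : z.2 ∈ e₂.target := hz.2
    have h1 : AnalyticAt ℂ (fun w : E₁ × E₂ => (η.coeff e₁ ∘ e₁.symm) w.1) z :=
      (η.holo e₁ he₁ z.1 hz1).comp_of_eq (f := Prod.fst) analyticAt_fst rfl
    have h2 : AnalyticAt ℂ (fun w : E₁ × E₂ => (s.coeff e₂ ∘ e₂.symm) w.2) z :=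
      (s.holo e₂ he₂ z.2 hz2).comp_of_eq (f := Prod.snd) analyticAt_snd rfl
    refine (h1.mul h2).congr ?_
    have hopen : IsOpen (e₁.target ×ˢ e₂.target) := e₁.open_target.prod e₂.open_target
    filter_upwards [hopen.mem_nhds ⟨hz1, hz2⟩] with w hw
    exact (boxCoeff_prod η s he₁ he₂ (e₁.map_target hw.1) (e₂.map_target hw.2)).symm
  compat := by
    intro e he e' he' z hz
    have : CompleteSpace (E₁ × E₂) := FiniteDimensional.complete ℂ _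
    have := prod_isManifold (E₁ := E₁) (E₂ := E₂) (M := M) (F := F)
    have hc : (chartAt E₁ z.1).prod (chartAt E₂ z.2) ∈ atlas (E₁ × E₂) (M × F) :=
      ⟨_, chart_mem_atlas _ _, _, chart_mem_atlas _ _, rfl⟩
    have hzc : z ∈ ((chartAt E₁ z.1).prod (chartAt E₂ z.2)).source :=
      ⟨mem_chart_source _ _, mem_chart_source _ _⟩
    have h1 := jac_id_comp (E := E₁ × E₂) (M := M × F) hc he he' hzc hz.1 hz.2
    unfold boxCoeff
    rw [h1]
    ring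

theorem AntiSection.box_coeff_prod (η : AntiSection E₁ M k) (s : AntiSection E₂ F k)
    {e₁ : OpenPartialHomeomorph M E₁} (he₁ : e₁ ∈ atlas E₁ M)
    {e₂ : OpenPartialHomeomorph F E₂} (he₂ : e₂ ∈ atlas E₂ F) {x : M} {y : F}
    (hx : x ∈ e₁.source) (hy : y ∈ e₂.source) :
    (η.box s).coeff (e₁.prod e₂) (x, y) = η.coeff e₁ x * s.coeff e₂ y :=
  boxCoeff_prod η s he₁ he₂ hx hy

theorem AntiSection.Nonzero.box {η : AntiSection E₁ M k} {s : AntiSection E₂ F k}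
    (hη : η.Nonzero) (hs : s.Nonzero) : (η.box s).Nonzero := by
  obtain ⟨e₁, he₁, x, hx, h1⟩ := hη
  obtain ⟨e₂, he₂, y, hy, h2⟩ := hs
  refine ⟨e₁.prod e₂, ⟨e₁, he₁, e₂, he₂, rfl⟩, (x, y), ⟨hx, hy⟩, ?_⟩
  rw [AntiSection.box_coeff_prod η s he₁ he₂ hx hy]
  exact mul_ne_zero h1 h2

theorem AntiSection.IsEigen.box {η : AntiSection E₁ M k} {s : AntiSection E₂ F k}
    {g : M → M} {h : F → F} {c d : ℂ} (hg : ContMDiff 𝓘(ℂ, E₁) 𝓘(ℂ, E₁) ω g)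
    (hh : ContMDiff 𝓘(ℂ, E₂) 𝓘(ℂ, E₂) ω h) (hη : η.IsEigen g c) (hs : s.IsEigen h d) :
    (η.box s).IsEigen (Prod.map g h) (c * d) := by
  rintro _ ⟨e₁, he₁, e₂, he₂, rfl⟩ _ ⟨e₁', he₁', e₂', he₂', rfl⟩ ⟨x, y⟩ ⟨hx, hy⟩ ⟨hx', hy'⟩
  change x ∈ e₁.source at hx
  change y ∈ e₂.source at hy
  change g x ∈ e₁'.source at hx'
  change h y ∈ e₂'.source at hy'
  have h1 := jac_prodMap (hg x) (hh y) he₁ he₁' he₂ he₂' hx hy hx' hy'
  have h2 := AntiSection.box_coeff_prod η s he₁ he₂ hx hy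
  have h3 := AntiSection.box_coeff_prod η s he₁' he₂' hx' hy'
  have h4 := hη e₁ he₁ e₁' he₁' x hx hx'
  have h5 := hs e₂ he₂ e₂' he₂' y hy hy'
  have h6 : Prod.map g h (x, y) = (g x, h y) := rfl
  rw [h6, h3, h4, h5, h2, h1]
  ring

end Vale.Agent.P299
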