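import Vale.Agent.P299.B.Coset
import Vale.Agent.P299.B.Product

/-! Descent from a product `M × F` to a quotient `X`. -/

open scoped Manifold ContDiff Topology
open Set Filter

namespace Vale.Agent.P299

attribute [local instance] prodCS

variable {E₁ : Type*} [NormedAddCommGroup E₁] [NormedSpace ℂ E₁] [FiniteDimensional ℂ E₁]
variable {E₂ : Type*} [NormedAddCommGroup E₂] [NormedSpace ℂ E₂] [FiniteDimensional ℂ E₂]
variable {M : Type*} [TopologicalSpace M] [ChartedSpace E₁ M] [IsManifold 𝓘(ℂ, E₁) ω M]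
variable {F : Type*} [TopologicalSpace F] [ChartedSpace E₂ F] [IsManifold 𝓘(ℂ, E₂) ω F]
variable {X : Type*} [TopologicalSpace X] [ChartedSpace (E₁ × E₂) X]
  [IsManifold 𝓘(ℂ, E₁ × E₂) ω X]

/-- Sections `η` of `-mK_M` and `s` of `-mK_F` give a section of a multiple of `-K_X`. -/
theorem exists_section_of_product [ConnectedSpace M] [ConnectedSpace F]
    {Γ : Type*} [Group Γ] [MulAction Γ (M × F)]
    (hact : ∀ γ : Γ, ContMDiff (𝓘(ℂ, E₁).prod 𝓘(ℂ, E₂)) (𝓘(ℂ, E₁).prod 𝓘(ℂ, E₂)) ω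
      (fun y : M × F => γ • y))
    {p : M × F → X}
    (hp : IsLocalDiffeomorph (𝓘(ℂ, E₁).prod 𝓘(ℂ, E₂)) 𝓘(ℂ, E₁ × E₂) ω p)
    (hsurj : Function.Surjective p)
    (hfib : ∀ y y' : M × F, p y = p y' ↔ ∃ γ : Γ, γ • y = y')
    (Γ₀ : Subgroup Γ) [Γ₀.FiniteIndex] {m : ℕ} (hm : 1 ≤ m)
    (η : AntiSection E₁ M m) (hη : η.Nonzero) (s : AntiSection E₂ F m) (hs : s.Nonzero)
    (hinv : ∀ γ ∈ Γ₀, ∃ (h : M → M) (k : F → F), ContMDiff 𝓘(ℂ, E₁) 𝓘(ℂ, E₁) ω h ∧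
      ContMDiff 𝓘(ℂ, E₂) 𝓘(ℂ, E₂) ω k ∧ (∀ x y, γ • (x, y) = (h x, k y)) ∧
      ∃ c d : ℂ, η.IsEigen h c ∧ s.IsEigen k d ∧ c * d = 1) :
    ∃ (N : ℕ) (_ : 1 ≤ N) (T : AntiSection (E₁ × E₂) X N), T.Nonzero := by
  have := prod_isManifold (E₁ := E₁) (E₂ := E₂) (M := M) (F := F)
  have hact' : ∀ γ : Γ, ContMDiff 𝓘(ℂ, E₁ × E₂) 𝓘(ℂ, E₁ × E₂) ω
      (fun y : M × F => γ • y) := by
    rw [modelWithCornersSelf_prod]
    exact hact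
  have hp' : IsLocalDiffeomorph 𝓘(ℂ, E₁ × E₂) 𝓘(ℂ, E₁ × E₂) ω p := by
    have h1 : ∀ (I : ModelWithCorners ℂ (E₁ × E₂) (E₁ × E₂)),
        I = 𝓘(ℂ, E₁).prod 𝓘(ℂ, E₂) → IsLocalDiffeomorph I 𝓘(ℂ, E₁ × E₂) ω p := by
      rintro _ rfl
      exact hp
    exact h1 _ modelWithCornersSelf_prod
  refine exists_section_of_covering (E := E₁ × E₂) (Y := M × F) hact' hp' hsurj hfib Γ₀
    (η.box s) (hη.box hs) ?_ hm
  intro γ hγ
  obtain ⟨h, k, hh, hk, heq, c, d, h1, h2, hcd⟩ := hinv γ hγ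
  have h3 := AntiSection.IsEigen.box hh hk h1 h2
  rw [hcd] at h3
  have h4 : (fun y : M × F => γ • y) = Prod.map h k := by
    funext ⟨x, y⟩
    exact heq x y
  rw [h4]
  exact h3

end Vale.Agent.P299
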