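import Vale.Agent.P299.Invariant
import Vale.Agent.P299.B.Final

/-! Assembly of the descent theorem. -/

open scoped Manifold ContDiff Topology
open Set Filter

namespace Vale.Agent.P299

theorem AntiSection.IsEigen.pow' {E : Type*} [NormedAddCommGroup E] [NormedSpace ℂ E]
    {M : Type*} [TopologicalSpace M] [ChartedSpace E M] {m : ℕ} {s : AntiSection E M m}
    {g : M → M} {c : ℂ} (h : s.IsEigen g c) (j : ℕ) : (s.pow j).IsEigen g (c ^ j) := by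
  intro e he e' he' x hx hx'
  rw [s.pow_coeff, s.pow_coeff, h e he e' he' x hx hx']
  ring

theorem AntiSection.IsEigen.cast' {E : Type*} [NormedAddCommGroup E] [NormedSpace ℂ E]
    {M : Type*} [TopologicalSpace M] [ChartedSpace E M] {m k : ℕ} {s : AntiSection E M m}
    {g : M → M} {c : ℂ} (h : s.IsEigen g c) (hmk : m = k) : (s.cast hmk).IsEigen g c := by
  subst hmk; exact h

variable {E : Type*} [NormedAddCommGroup E] [NormedSpace ℂ E] [FiniteDimensional ℂ E]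
variable {n r : ℕ}
variable {M : Type*} [TopologicalSpace M] [ChartedSpace E M] [IsManifold 𝓘(ℂ, E) ω M]
variable {F : Type*} [TopologicalSpace F] [ChartedSpace (Fin n → ℂ) F]
  [IsManifold 𝓘(ℂ, Fin n → ℂ) ω F] [CompactSpace F] [T2Space F]
variable {X : Type*} [TopologicalSpace X] [ChartedSpace (E × (Fin n → ℂ)) X]
  [IsManifold 𝓘(ℂ, E × (Fin n → ℂ)) ω X]

theorem descent [ConnectedSpace M] [ConnectedSpace F]
    {Γ : Type*} [Group Γ] [MulAction Γ (M × F)]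
    (hact : ∀ γ : Γ, ContMDiff (𝓘(ℂ, E).prod 𝓘(ℂ, Fin n → ℂ)) (𝓘(ℂ, E).prod 𝓘(ℂ, Fin n → ℂ)) ω
      (fun y : M × F => γ • y))
    {p : M × F → X}
    (hp : IsLocalDiffeomorph (𝓘(ℂ, E).prod 𝓘(ℂ, Fin n → ℂ)) 𝓘(ℂ, E × (Fin n → ℂ)) ω p)
    (hsurj : Function.Surjective p)
    (hfib : ∀ y y' : M × F, p y = p y' ↔ ∃ γ : Γ, γ • y = y')
    {k : ℕ} (hk : 1 ≤ k) (η : AntiSection E M k) (hη : η.Nonzero)
    (T : TorusAction r (Fin n → ℂ) F)
    (Γ₀ : Subgroup Γ) [Γ₀.FiniteIndex]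
    (hΓ₀ : ∀ γ ∈ Γ₀, ∃ (h : M → M) (w : Fin r → ℂ), ContMDiff 𝓘(ℂ, E) 𝓘(ℂ, E) ω h ∧
      (∀ x y, γ • (x, y) = (h x, T.act w y)) ∧ η.IsEigen h 1)
    {m : ℕ} (hm : 1 ≤ m) {ι : Type*} [Fintype ι] (s : ι → AntiSection (Fin n → ℂ) F m)
    (hs : IsLC s) :
    ∃ (N : ℕ) (_ : 1 ≤ N) (T : AntiSection (E × (Fin n → ℂ)) X N), T.Nonzero := by
  obtain ⟨N, hN, t, ht, htT⟩ := exists_torus_invariant T hm s hs
  have hNk : 1 ≤ N * k := Nat.mul_pos hN hk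
  have hcomm : k * N = N * k := Nat.mul_comm k N
  refine exists_section_of_product hact hp hsurj hfib Γ₀ hNk (η.pow N) (hη.pow N)
    ((t.pow k).cast hcomm) ?_ ?_
  · obtain ⟨e, he, x, hx, hn⟩ := ht.pow k
    exact ⟨e, he, x, hx, hn⟩
  · intro γ hγ
    obtain ⟨h, w, hh, heq, hηh⟩ := hΓ₀ γ hγ
    refine ⟨h, T.act w, hh, T.contMDiff_act w, heq, 1 ^ N, 1 ^ k, hηh.pow' N,
      ((htT w).pow' k).cast' hcomm, by simp⟩

end Vale.Agent.P299
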