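import Vale.Agent.P299.B.Descent

/-! The norm of a section over the cosets of a subgroup of finite index. -/

open scoped Manifold ContDiff Topology
open Set Filter

namespace Vale.Agent.P299

variable {E : Type*} [NormedAddCommGroup E] [NormedSpace ℂ E]
variable {Y : Type*} [TopologicalSpace Y] [ChartedSpace E Y]
variable {m : ℕ}

/-- products over a finite set -/
def AntiSection.prod {ι : Type*} (A : Finset ι) (s : ι → AntiSection E Y m) :
    AntiSection E Y (A.card * m) where
  coeff e x := ∏ i ∈ A, (s i).coeff e x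
  holo e he := by
    have h : ((fun x => ∏ i ∈ A, (s i).coeff e x) ∘ e.symm)
        = fun z => ∏ i ∈ A, ((s i).coeff e ∘ e.symm) z := by
      funext z; simp
    rw [h]
    exact Finset.analyticOnNhd_fun_prod _ fun i _ => (s i).holo e he
  compat e he e' he' x hx := by
    have h1 : ∏ i ∈ A, (s i).coeff e' x = ∏ i ∈ A, (jac id e e' x ^ m * (s i).coeff e x) :=
      Finset.prod_congr rfl fun i _ => (s i).compat e he e' he' x hx
    rw [h1, Finset.prod_mul_distrib, Finset.prod_const, ← pow_mul, mul_comm m]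

theorem AntiSection.Nonzero.prod [PreconnectedSpace Y] [Nonempty Y] {ι : Type*} (A : Finset ι)
    {s : ι → AntiSection E Y m} (hs : ∀ i ∈ A, (s i).Nonzero) :
    (AntiSection.prod A s).Nonzero := by
  classical
  induction A using Finset.induction_on with
  | empty =>
    obtain ⟨x⟩ := (inferInstance : Nonempty Y)
    exact ⟨chartAt E x, chart_mem_atlas E x, x, mem_chart_source E x, by
      simp [AntiSection.prod]⟩
  | insert a A ha ih =>
    have h1 := (hs a (Finset.mem_insert_self a A)).mul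
      (ih fun i hi => hs i (Finset.mem_insert_of_mem hi))
    obtain ⟨e, he, x, hx, hn⟩ := h1
    refine ⟨e, he, x, hx, ?_⟩
    change ∏ i ∈ insert a A, (s i).coeff e x ≠ 0
    rw [Finset.prod_insert ha]
    exact hn

variable [FiniteDimensional ℂ E] [IsManifold 𝓘(ℂ, E) ω Y]

theorem AntiSection.Nonzero.pull {g : Y → Y} (hg : LocBihol E g) (hs : Function.Surjective g)
    {s : AntiSection E Y m} (h : s.Nonzero) : (s.pull hg).Nonzero := by
  obtain ⟨e', he', y, hy, hn⟩ := h
  obtain ⟨x, rfl⟩ := hs y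
  refine ⟨chartAt E x, chart_mem_atlas E x, x, mem_chart_source E x, ?_⟩
  rw [s.pull_coeff hg (chart_mem_atlas E x) he' (mem_chart_source E x) hy]
  exact mul_ne_zero hn (inv_ne_zero (pow_ne_zero _
    (hg.ne_zero _ (chart_mem_atlas E x) _ he' x (mem_chart_source E x) hy)))

section group

variable {Γ : Type*} [Group Γ] [MulAction Γ Y]

theorem locBihol_smul (hact : ∀ γ : Γ, ContMDiff 𝓘(ℂ, E) 𝓘(ℂ, E) ω (fun y : Y => γ • y))
    (γ : Γ) : LocBihol E (fun y : Y => γ • y) := by
  have : CompleteSpace E := FiniteDimensional.complete ℂ E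
  exact LocBihol.of_inverse (hact γ) (hact γ⁻¹) fun x => inv_smul_smul γ x

/-- **Norm over the cosets.** -/
theorem exists_invariant [PreconnectedSpace Y] [Nonempty Y]
    (hact : ∀ γ : Γ, ContMDiff 𝓘(ℂ, E) 𝓘(ℂ, E) ω (fun y : Y => γ • y))
    (Γ₀ : Subgroup Γ) [Γ₀.FiniteIndex] (S : AntiSection E Y m) (hS : S.Nonzero)
    (hinv : ∀ γ ∈ Γ₀, S.IsEigen (fun y => γ • y) 1) :
    ∃ (k : ℕ) (_ : 1 ≤ k) (T : AntiSection E Y (k * m)), T.Nonzero ∧
      ∀ γ : Γ, T.IsEigen (fun y => γ • y) 1 := by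
  classical
  have : CompleteSpace E := FiniteDimensional.complete ℂ E
  have : Fintype (Γ ⧸ Γ₀) := Fintype.ofFinite _
  let P : Γ ⧸ Γ₀ → AntiSection E Y m := fun q => S.pull (locBihol_smul hact (q.out)⁻¹)
  have key : ∀ (δ : Γ) (q : Γ ⧸ Γ₀), ∀ e ∈ atlas E Y, ∀ e' ∈ atlas E Y, ∀ x ∈ e.source,
      δ • x ∈ e'.source → (P q).coeff e' (δ • x) =
        jac (fun y => δ • y) e e' x ^ m * (P (δ⁻¹ • q)).coeff e x := by
    intro δ q e he e' he' x hx hx'
    set a : Γ := (q.out)⁻¹ with ha
    set b : Γ := ((δ⁻¹ • q).out)⁻¹ with hb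
    -- `a δ = h b` with `h ∈ Γ₀`
    set h : Γ := a * δ * b⁻¹ with hh
    have hmem : h ∈ Γ₀ := by
      have h1 : ((δ⁻¹ * q.out : Γ) : Γ ⧸ Γ₀) = δ⁻¹ • q := by
        conv_rhs => rw [← Quotient.out_eq' q]
        rfl
      have h2 : (((δ⁻¹ • q).out : Γ) : Γ ⧸ Γ₀) = δ⁻¹ • q := Quotient.out_eq' _
      have h3 := h1.trans h2.symm
      rw [QuotientGroup.eq] at h3
      have h4 : h = (δ⁻¹ * q.out)⁻¹ * (δ⁻¹ • q).out := by
        rw [hh, ha, hb]; group
      rw [h4]; exact h3
    have e1 : a • δ • x = h • b • x := by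
      simp only [hh, smul_smul]; congr 1; group
    set c := chartAt E (a • δ • x) with hc
    set c' := chartAt E (b • x) with hc'
    have hca : c ∈ atlas E Y := chart_mem_atlas _ _
    have hca' : c' ∈ atlas E Y := chart_mem_atlas _ _
    have hcs : a • δ • x ∈ c.source := mem_chart_source _ _
    have hcs' : b • x ∈ c'.source := mem_chart_source _ _
    have hcs2 : h • b • x ∈ c.source := by rw [← e1]; exact hcs
    have h5 : (P q).coeff e' (δ • x) = S.coeff c (a • δ • x) *
        (jac (fun y => a • y) e' c (δ • x) ^ m)⁻¹ :=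
      S.pull_coeff (locBihol_smul hact a) he' hca hx' hcs
    have h6 : (P (δ⁻¹ • q)).coeff e x = S.coeff c' (b • x) *
        (jac (fun y => b • y) e c' x ^ m)⁻¹ :=
      S.pull_coeff (locBihol_smul hact b) he hca' hx hcs'
    have h7 := hinv h hmem c' hca' c hca (b • x) hcs' hcs2
    have h8 := jac_comp (g := fun y : Y => δ • y) (h := fun y : Y => a • y) (hact δ x)
      (hact a (δ • x)) he he' hca hx hx' hcs
    have h9 := jac_comp (g := fun y : Y => b • y) (h := fun y : Y => h • y) (hact b x)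
      (hact h (b • x)) he hca' hca hx hcs' hcs2
    have h10 : ((fun y : Y => h • y) ∘ fun y : Y => b • y) =
        ((fun y : Y => a • y) ∘ fun y : Y => δ • y) := by
      funext y
      simp only [Function.comp_apply, smul_smul, hh]
      congr 1; group
    rw [h10, h8] at h9
    have n1 := pow_ne_zero m ((locBihol_smul hact a).ne_zero e' he' c hca (δ • x) hx' hcs)
    have n2 := pow_ne_zero m ((locBihol_smul hact b).ne_zero e he c' hca' x hx hcs')
    simp only at h7
    rw [h5, h6, e1, h7]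
    have h11 := congrArg (fun z => z ^ m) h9
    simp only [mul_pow] at h11
    field_simp
    linear_combination S.coeff c' (b • x) * (-h11)
  have hfin : 1 ≤ Fintype.card (Γ ⧸ Γ₀) := Fintype.card_pos
  refine ⟨(Finset.univ : Finset (Γ ⧸ Γ₀)).card, hfin, AntiSection.prod Finset.univ P, ?_, ?_⟩
  · refine AntiSection.Nonzero.prod _ fun q _ => AntiSection.Nonzero.pull _ ?_ hS
    exact MulAction.surjective _
  · intro δ e he e' he' x hx hx'
    change ∏ q, (P q).coeff e' (δ • x) = 1 * _ ^ _ * ∏ q, (P q).coeff e x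
    have h1 : ∏ q, (P q).coeff e' (δ • x) =
        ∏ q, (jac (fun y => δ • y) e e' x ^ m * (P (δ⁻¹ • q)).coeff e x) :=
      Finset.prod_congr rfl fun q _ => key δ q e he e' he' x hx hx'
    rw [h1, Finset.prod_mul_distrib, Finset.prod_const, ← pow_mul, one_mul, mul_comm m]
    congr 1
    exact Equiv.prod_comp (MulAction.toPerm δ⁻¹) (fun q => (P q).coeff e x)

/-- **Descent.** A nonzero section on `Y`, invariant under a subgroup of finite index of a group
whose orbits are the fibres of `p`, gives a nonzero section on `X`. -/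
theorem exists_section_of_covering [PreconnectedSpace Y] [Nonempty Y]
    {X : Type*} [TopologicalSpace X] [ChartedSpace E X] [IsManifold 𝓘(ℂ, E) ω X]
    (hact : ∀ γ : Γ, ContMDiff 𝓘(ℂ, E) 𝓘(ℂ, E) ω (fun y : Y => γ • y))
    {p : Y → X} (hp : IsLocalDiffeomorph 𝓘(ℂ, E) 𝓘(ℂ, E) ω p) (hsurj : Function.Surjective p)
    (hfib : ∀ y y' : Y, p y = p y' ↔ ∃ γ : Γ, γ • y = y')
    (Γ₀ : Subgroup Γ) [Γ₀.FiniteIndex] (S : AntiSection E Y m) (hS : S.Nonzero)
    (hinv : ∀ γ ∈ Γ₀, S.IsEigen (fun y => γ • y) 1) (hm : 1 ≤ m) :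
    ∃ (N : ℕ) (_ : 1 ≤ N) (T : AntiSection E X N), T.Nonzero := by
  obtain ⟨k, hk, T, hT, hTinv⟩ := exists_invariant hact Γ₀ S hS hinv
  have hfi : FibreInvariant p T := by
    intro y y' h
    obtain ⟨γ, hγ⟩ := (hfib y y').1 h
    exact ⟨fun y => γ • y, hact γ, hγ, fun z => ((hfib z (γ • z)).2 ⟨γ, rfl⟩).symm, hTinv γ⟩
  exact ⟨k * m, Nat.mul_pos hk hm, T.desc hp hsurj hfi, hT.desc hp hsurj hfi⟩

end group

end Vale.Agent.P299
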