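import Vale.Agent.P299.Identity
import Mathlib

/-! Descent of sections along a surjective local biholomorphism, and norms over cosets. -/

open scoped Manifold ContDiff Topology
open Set Filter

namespace Vale.Agent.P299

variable {E : Type*} [NormedAddCommGroup E] [NormedSpace ℂ E] [FiniteDimensional ℂ E]
variable {X : Type*} [TopologicalSpace X] [ChartedSpace E X] [IsManifold 𝓘(ℂ, E) ω X]
variable {Y : Type*} [TopologicalSpace Y] [ChartedSpace E Y] [IsManifold 𝓘(ℂ, E) ω Y]
variable {m : ℕ}

/-- Every point in the fibre over `p y` is reached from `y` by a map over `X` fixing `S`. -/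
def FibreInvariant (p : Y → X) (S : AntiSection E Y m) : Prop :=
  ∀ y y' : Y, p y = p y' → ∃ g : Y → Y, ContMDiff 𝓘(ℂ, E) 𝓘(ℂ, E) ω g ∧ g y = y' ∧
    (∀ z, p (g z) = p z) ∧ S.IsEigen g 1

/-- the coefficient of the descended section -/
noncomputable def descCoeff (p : Y → X) (S : AntiSection E Y m)
    (e : OpenPartialHomeomorph X E) (x : X) : ℂ :=
  haveI := Classical.propDecidable
  if h : ∃ y, p y = x then
    jac p (chartAt E h.choose) e h.choose ^ m * S.coeff (chartAt E h.choose) h.choose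
  else 0

theorem descCoeff_eq {p : Y → X} (hp : ContMDiff 𝓘(ℂ, E) 𝓘(ℂ, E) ω p) {S : AntiSection E Y m}
    (hS : FibreInvariant p S) {e : OpenPartialHomeomorph X E} (he : e ∈ atlas E X)
    {e₁ : OpenPartialHomeomorph Y E} (he₁ : e₁ ∈ atlas E Y) {y : Y} (hy : y ∈ e₁.source)
    (hpy : p y ∈ e.source) :
    descCoeff p S e (p y) = jac p e₁ e y ^ m * S.coeff e₁ y := by
  have : CompleteSpace E := FiniteDimensional.complete ℂ E
  have h : ∃ y', p y' = p y := ⟨y, rfl⟩
  unfold descCoeff
  rw [dif_pos h]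
  set y0 := h.choose with hy0
  have hpy0 : p y0 = p y := h.choose_spec
  obtain ⟨g, hg, hgy, hpg, hSg⟩ := hS y0 y hpy0
  have h1 := hSg (chartAt E y0) (chart_mem_atlas E y0) e₁ he₁ y0 (mem_chart_source E y0)
    (by rw [hgy]; exact hy)
  have h2 := jac_comp (g := g) (h := p) (hg y0) (hp (g y0)) (chart_mem_atlas E y0) he₁ he
    (mem_chart_source E y0) (by rw [hgy]; exact hy) (by rw [hgy]; exact hpy)
  have h3 : p ∘ g = p := funext hpg
  rw [h3, hgy] at h2
  rw [hgy, one_mul] at h1
  rw [h1, h2]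
  ring

/-- Descent of an invariant section. -/
noncomputable def AntiSection.desc {p : Y → X} (hp : IsLocalDiffeomorph 𝓘(ℂ, E) 𝓘(ℂ, E) ω p)
    (hsurj : Function.Surjective p) {S : AntiSection E Y m}
    (hS : FibreInvariant p S) : AntiSection E X m where
  coeff := descCoeff p S
  holo := by
    intro e he w hw
    have : CompleteSpace E := FiniteDimensional.complete ℂ E
    set x := e.symm w with hx
    have hxs : x ∈ e.source := e.map_target hw
    obtain ⟨y, hy⟩ := hsurj x
    have hpy : IsLocalDiffeomorphAt 𝓘(ℂ, E) 𝓘(ℂ, E) ω p y := hp y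
    set q := hpy.localInverse with hq
    have hqx : q x = y := by rw [← hy]; exact hpy.localInverse_left_inv hpy.localInverse_mem_target
    have hxq : x ∈ q.source := by rw [← hy]; exact hpy.localInverse_mem_source
    have hqd : ContMDiffAt 𝓘(ℂ, E) 𝓘(ℂ, E) ω q x := by
      rw [← hy]; exact hpy.localInverse_contMDiffAt
    set e₁ := chartAt E y with he₁
    have he₁a : e₁ ∈ atlas E Y := chart_mem_atlas E y
    have hye₁ : y ∈ e₁.source := mem_chart_source E y
    have hqxe : q x ∈ e₁.source := by rw [hqx]; exact hye₁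
    have hwx : e x = w := e.right_inv hw
    have h1 : AnalyticAt ℂ (e₁ ∘ q ∘ e.symm) w := by
      have := analyticAt_chart hqd he he₁a hxs hqxe
      rwa [hwx] at this
    have hval : (e₁ ∘ q ∘ e.symm) w = e₁ y := by
      simp only [Function.comp_apply]; rw [← hx, hqx]
    have h2 : AnalyticAt ℂ (S.coeff e₁ ∘ e₁.symm) ((e₁ ∘ q ∘ e.symm) w) := by
      rw [hval]; exact S.analyticAt_coeff he₁a hye₁
    have h3 : AnalyticAt ℂ (jac p e₁ e ∘ e₁.symm) ((e₁ ∘ q ∘ e.symm) w) := by
      rw [hval]
      exact analyticAt_jac (hp.contMDiff y) he₁a he hye₁ (by rw [hy]; exact hxs)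
    have h4 := ((h3.comp h1).pow m).mul (h2.comp h1)
    refine h4.congr ?_
    have hc : ContinuousAt e.symm w := e.continuousAt_symm hw
    have hcq : ContinuousAt (fun w => q (e.symm w)) w :=
      ContinuousAt.comp (f := e.symm) (g := q) hqd.continuousAt hc
    filter_upwards [hc.preimage_mem_nhds (hpy.localInverse_open_source.mem_nhds hxq),
      hcq.preimage_mem_nhds (e₁.open_source.mem_nhds hqxe), e.open_target.mem_nhds hw]
      with w' hw1 hw2 hw3
    have hw2' : q (e.symm w') ∈ e₁.source := hw2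
    have h5 : p (q (e.symm w')) = e.symm w' := hpy.localInverse_right_inv hw1
    have h6 := descCoeff_eq hp.contMDiff hS he he₁a hw2' (by rw [h5]; exact e.map_target hw3)
    simp only [Pi.mul_apply, Pi.pow_apply, Function.comp_apply, e₁.left_inv hw2']
    rw [h5] at h6
    exact h6.symm
  compat := by
    intro e he e' he' x hx
    have : CompleteSpace E := FiniteDimensional.complete ℂ E
    obtain ⟨y, rfl⟩ := hsurj x
    rw [descCoeff_eq hp.contMDiff hS he (chart_mem_atlas E y) (mem_chart_source E y) hx.1,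
      descCoeff_eq hp.contMDiff hS he' (chart_mem_atlas E y) (mem_chart_source E y) hx.2,
      jac_change_right (hp.contMDiff y) (chart_mem_atlas E y) he he' (mem_chart_source E y)
        hx.1 hx.2]
    ring

theorem AntiSection.desc_coeff {p : Y → X} (hp : IsLocalDiffeomorph 𝓘(ℂ, E) 𝓘(ℂ, E) ω p)
    (hsurj : Function.Surjective p) {S : AntiSection E Y m}
    (hS : FibreInvariant p S) {e : OpenPartialHomeomorph X E} (he : e ∈ atlas E X)
    {e₁ : OpenPartialHomeomorph Y E} (he₁ : e₁ ∈ atlas E Y) {y : Y} (hy : y ∈ e₁.source)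
    (hpy : p y ∈ e.source) :
    (S.desc hp hsurj hS).coeff e (p y) = jac p e₁ e y ^ m * S.coeff e₁ y :=
  descCoeff_eq hp.contMDiff hS he he₁ hy hpy

theorem AntiSection.Nonzero.desc {p : Y → X} (hp : IsLocalDiffeomorph 𝓘(ℂ, E) 𝓘(ℂ, E) ω p)
    (hsurj : Function.Surjective p) {S : AntiSection E Y m}
    (hS : FibreInvariant p S) (hn : S.Nonzero) : (S.desc hp hsurj hS).Nonzero := by
  have : CompleteSpace E := FiniteDimensional.complete ℂ E
  obtain ⟨e₁, he₁, y, hy, h⟩ := hn
  refine ⟨chartAt E (p y), chart_mem_atlas E (p y), p y, mem_chart_source E (p y), ?_⟩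
  rw [AntiSection.desc_coeff hp hsurj hS (chart_mem_atlas E (p y)) he₁ hy (mem_chart_source E _)]
  refine mul_ne_zero (pow_ne_zero _ ?_) h
  have hpy : IsLocalDiffeomorphAt 𝓘(ℂ, E) 𝓘(ℂ, E) ω p y := hp y
  exact jac_ne_zero_of_leftInverse (hp.contMDiff y) hpy.localInverse_contMDiffAt
    (hpy.localInverse_eventuallyEq_left) he₁ (chart_mem_atlas E (p y)) hy (mem_chart_source E _)

end Vale.Agent.P299
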