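import Mathlib

/-! Gordan's alternative for a finite set of integer vectors. -/

open Set

namespace Vale.Agent.P299

/-- Simultaneous approximation: some positive multiple of a finite family of reals is close to
integers. -/
theorem exists_near_int {ι : Type*} [Finite ι] (w : ι → ℝ) {ε : ℝ} (hε : 0 < ε) :
    ∃ N : ℕ, 0 < N ∧ ∀ i, |N * w i - round (N * w i)| < ε := by
  have := Fintype.ofFinite ι
  let u : ℕ → ι → ℝ := fun k i => Int.fract (k * w i)
  have hu : ∀ k, u k ∈ Set.pi univ (fun _ : ι => Icc (0 : ℝ) 1) := by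
    intro k i _
    exact ⟨Int.fract_nonneg _, (Int.fract_lt_one _).le⟩
  have hc : IsCompact (Set.pi univ (fun _ : ι => Icc (0 : ℝ) 1)) :=
    isCompact_univ_pi fun _ => isCompact_Icc
  obtain ⟨a, -, φ, hφ, hlim⟩ := hc.tendsto_subseq hu
  have hcs : CauchySeq (u ∘ φ) := hlim.cauchySeq
  obtain ⟨M, hM⟩ := Metric.cauchySeq_iff.1 hcs ε hε
  have h1 := hM (M + 1) (Nat.le_succ M) M le_rfl
  have hlt : φ M < φ (M + 1) := hφ (Nat.lt_succ_self M)
  refine ⟨φ (M + 1) - φ M, Nat.sub_pos_of_lt hlt, fun i => ?_⟩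
  have h2 : |u (φ (M + 1)) i - u (φ M) i| < ε := by
    have := (dist_le_pi_dist (u (φ (M + 1))) (u (φ M)) i).trans_lt h1
    rwa [Real.dist_eq] at this
  have h3 : ((φ (M + 1) - φ M : ℕ) : ℝ) * w i = φ (M + 1) * w i - φ M * w i := by
    rw [Nat.cast_sub hlt.le]; ring
  have h4 : |((φ (M + 1) - φ M : ℕ) : ℝ) * w i -
      ((⌊(φ (M + 1) : ℝ) * w i⌋ - ⌊(φ M : ℝ) * w i⌋ : ℤ) : ℝ)| < ε := by
    rw [h3]
    simp only [u, Int.fract] at h2
    have : (φ (M + 1) : ℝ) * w i - φ M * w i -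
        ((⌊(φ (M + 1) : ℝ) * w i⌋ - ⌊(φ M : ℝ) * w i⌋ : ℤ) : ℝ) =
        ((φ (M + 1) : ℝ) * w i - ⌊(φ (M + 1) : ℝ) * w i⌋) -
          ((φ M : ℝ) * w i - ⌊(φ M : ℝ) * w i⌋) := by
      push_cast; ring
    rw [this]
    exact h2
  exact (round_le _ _).trans_lt h4

/-- Gordan's alternative: either a nontrivial relation with natural coefficients, or a real linear
form that is positive on the whole set. -/
theorem gordan {r : ℕ} (S : Finset (Fin r → ℤ)) :
    (∃ n : (Fin r → ℤ) → ℕ, (∃ χ ∈ S, n χ ≠ 0) ∧ ∑ χ ∈ S, n χ • χ = 0) ∨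
    (∃ (l : Fin r → ℝ) (δ : ℝ), 0 < δ ∧ ∀ χ ∈ S, δ ≤ ∑ j, l j * (χ j : ℝ)) := by
  classical
  let φ : (Fin r → ℤ) → (Fin r → ℝ) := fun χ j => (χ j : ℝ)
  have hφ : Function.Injective φ := by
    intro a b h
    funext j
    have h1 : ((a j : ℤ) : ℝ) = (b j : ℤ) := congrFun h j
    exact_mod_cast h1
  by_cases h0 : (0 : Fin r → ℝ) ∈ convexHull ℝ ((S.image φ : Finset (Fin r → ℝ)) : Set (Fin r → ℝ))
  · left
    rw [Finset.convexHull_eq] at h0
    obtain ⟨w, hw0, hw1, hw⟩ := h0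
    rw [Finset.centerMass_eq_of_sum_1 _ _ hw1] at hw
    rw [Finset.sum_image (fun a _ b _ h => hφ h)] at hw hw1
    simp only [id] at hw
    let ε : ℝ := (1 + S.card + ∑ χ ∈ S, ∑ j, |(χ j : ℝ)|)⁻¹
    have hD : 0 < 1 + (S.card : ℝ) + ∑ χ ∈ S, ∑ j, |(χ j : ℝ)| := by
      have : 0 ≤ ∑ χ ∈ S, ∑ j, |(χ j : ℝ)| :=
        Finset.sum_nonneg fun _ _ => Finset.sum_nonneg fun _ _ => abs_nonneg _
      positivity
    have hε : 0 < ε := inv_pos.2 hD
    obtain ⟨N, hN, happ⟩ := exists_near_int (ι := S) (fun χ => w (φ χ)) hε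
    have happ' : ∀ χ ∈ S, |N * w (φ χ) - round (N * w (φ χ))| < ε := fun χ h => happ ⟨χ, h⟩
    have hpos : ∀ χ ∈ S, 0 ≤ round (N * w (φ χ)) := by
      intro χ h
      have : 0 ≤ N * w (φ χ) := mul_nonneg (Nat.cast_nonneg _) (hw0 _ (Finset.mem_image_of_mem _ h))
      rw [round_eq]
      exact Int.floor_nonneg.2 (by linarith)
    have hcast : ∀ χ ∈ S, (((round (N * w (φ χ))).toNat : ℕ) : ℝ) = (round (N * w (φ χ)) : ℤ) := by
      intro χ h
      have := Int.toNat_of_nonneg (hpos χ h)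
      exact_mod_cast congrArg (Int.cast (R := ℝ)) this
    refine ⟨fun χ => (round (N * w (φ χ))).toNat, ?_, ?_⟩
    · by_contra hcon
      push Not at hcon
      have h1 : ∑ χ ∈ S, ((N : ℝ) * w (φ χ) - round (N * w (φ χ))) = N := by
        rw [Finset.sum_sub_distrib, ← Finset.mul_sum, hw1]
        have : ∑ χ ∈ S, ((round (N * w (φ χ)) : ℤ) : ℝ) = 0 := by
          apply Finset.sum_eq_zero
          intro χ h
          rw [← hcast χ h, hcon χ h]
          simp
        rw [this]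
        ring
      have h2 : ∑ χ ∈ S, ((N : ℝ) * w (φ χ) - round (N * w (φ χ))) ≤ S.card * ε := by
        calc _ ≤ ∑ χ ∈ S, ε := Finset.sum_le_sum fun χ h => (le_abs_self _).trans (happ' χ h).le
          _ = S.card * ε := by rw [Finset.sum_const, nsmul_eq_mul]
      have h3 : S.card * ε < 1 := by
        rw [← div_eq_mul_inv, div_lt_one hD]
        have : 0 ≤ ∑ χ ∈ S, ∑ j, |(χ j : ℝ)| :=
          Finset.sum_nonneg fun _ _ => Finset.sum_nonneg fun _ _ => abs_nonneg _
        linarith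
      have h4 : (1 : ℝ) ≤ N := by exact_mod_cast hN
      linarith
    · funext j
      have h1 : |((∑ χ ∈ S, (round (N * w (φ χ))).toNat • χ) j : ℝ)| < 1 := by
        have e1 : ((∑ χ ∈ S, (round (N * w (φ χ))).toNat • χ) j : ℝ) =
            ∑ χ ∈ S, ((round (N * w (φ χ)) : ℤ) : ℝ) * χ j := by
          rw [Finset.sum_apply, Int.cast_sum]
          refine Finset.sum_congr rfl fun χ h => ?_
          rw [← hcast χ h, Pi.smul_apply, nsmul_eq_mul, Int.cast_mul, Int.cast_natCast]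
        have e2 : ∑ χ ∈ S, (N * w (φ χ)) * (χ j : ℝ) = 0 := by
          have := congrFun hw j
          rw [Finset.sum_apply] at this
          simp only [Pi.smul_apply, smul_eq_mul, Pi.zero_apply, φ] at this
          have h2 : ∑ χ ∈ S, (N * w (φ χ)) * (χ j : ℝ) = N * ∑ χ ∈ S, w (φ χ) * (χ j : ℝ) := by
            rw [Finset.mul_sum]
            exact Finset.sum_congr rfl fun _ _ => by ring
          rw [h2]
          have h3 : ∑ χ ∈ S, w (φ χ) * (χ j : ℝ) = 0 := this
          rw [h3, mul_zero]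
        rw [e1, ← sub_zero (∑ χ ∈ S, ((round (N * w (φ χ)) : ℤ) : ℝ) * χ j), ← e2,
          ← Finset.sum_sub_distrib]
        calc |∑ χ ∈ S, (((round (N * w (φ χ)) : ℤ) : ℝ) * χ j - N * w (φ χ) * χ j)|
            ≤ ∑ χ ∈ S, |((round (N * w (φ χ)) : ℤ) : ℝ) * χ j - N * w (φ χ) * χ j| :=
              Finset.abs_sum_le_sum_abs _ _
          _ ≤ ∑ χ ∈ S, ε * |(χ j : ℝ)| := by
              refine Finset.sum_le_sum fun χ h => ?_
              rw [← sub_mul, abs_mul, abs_sub_comm]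
              exact mul_le_mul_of_nonneg_right (happ' χ h).le (abs_nonneg _)
          _ = ε * ∑ χ ∈ S, |(χ j : ℝ)| := by rw [Finset.mul_sum]
          _ < 1 := by
              rw [mul_comm, ← div_eq_mul_inv, div_lt_one hD]
              have h5 : ∑ χ ∈ S, |(χ j : ℝ)| ≤ ∑ χ ∈ S, ∑ j, |(χ j : ℝ)| :=
                Finset.sum_le_sum fun χ _ => Finset.single_le_sum
                  (f := fun j => |(χ j : ℝ)|) (fun _ _ => abs_nonneg _) (Finset.mem_univ j)
              have h6 : (0 : ℝ) ≤ S.card := Nat.cast_nonneg _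
              linarith
      have h2 : |(∑ χ ∈ S, (round (N * w (φ χ))).toNat • χ) j| < 1 := by exact_mod_cast h1
      exact Int.abs_lt_one_iff.1 h2
  · right
    have hcl : IsClosed (convexHull ℝ ((S.image φ : Finset (Fin r → ℝ)) : Set (Fin r → ℝ))) :=
      ((S.image φ).finite_toSet.isCompact_convexHull ℝ).isClosed
    obtain ⟨f, u, hf0, hf⟩ := geometric_hahn_banach_point_closed
      (convex_convexHull ℝ _) hcl h0
    rw [map_zero] at hf0
    refine ⟨fun j => f (Pi.single j 1), u, hf0, fun χ h => ?_⟩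
    have h1 := hf (φ χ) (subset_convexHull ℝ _ (by simpa using ⟨χ, h, rfl⟩))
    have h2 : f (φ χ) = ∑ j, f (Pi.single j 1) * (χ j : ℝ) := by
      conv_lhs => rw [← Finset.univ_sum_single (φ χ), map_sum]
      refine Finset.sum_congr rfl fun j _ => ?_
      have : (Pi.single j (φ χ j) : Fin r → ℝ) = (χ j : ℝ) • (Pi.single j (1 : ℝ) : Fin r → ℝ) := by
        ext k
        by_cases hk : k = j
        · subst hk; simp [φ]
        · simp [Pi.single_eq_of_ne hk]
      rw [this, map_smul, smul_eq_mul, mul_comm]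
    rw [← h2]
    exact h1.le

end Vale.Agent.P299
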