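import Vale.Agent.P299.B.Meas
import Vale.Agent.P299.B.Gordan

/-! The results of the measure part, for analytic manifolds and maps. -/

open scoped Manifold ContDiff Topology ENNReal
open MeasureTheory Set

noncomputable section

namespace Vale.Agent.P299

variable {n : ℕ} {F : Type*} [TopologicalSpace F] [ChartedSpace (Fin n → ℂ) F]
  [CompactSpace F] [T2Space F] [IsManifold 𝓘(ℂ, Fin n → ℂ) ω F]

/-- The volume argument for a log canonical family of eigensections. -/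
theorem no_expansion_family [Nonempty F] {ι : Type*} [Fintype ι] {m : ℕ} (hm : 1 ≤ m)
    (s : ι → AntiSection (Fin n → ℂ) F m) (hlc : IsLC s) {g : F → F}
    (hg : ContMDiff 𝓘(ℂ, Fin n → ℂ) 𝓘(ℂ, Fin n → ℂ) ω g) (hb : Function.Bijective g)
    (c : ι → ℂ) (L : ℝ) (hL : 1 < L) (hc : ∀ i, L ≤ ‖c i‖) (he : ∀ i, (s i).IsEigen g (c i)) :
    False := by
  have : IsManifold 𝓘(ℂ, Fin n → ℂ) 1 F := IsManifold.of_le (n := ω) le_top
  exact Meas.no_expansion_family hm s hlc (hg.of_le le_top) hb c L hL hc he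

/-- Eigenvalues of a biholomorphism on sections are bounded. -/
theorem eigen_bound {g g' : F → F}
    (hg : ContMDiff 𝓘(ℂ, Fin n → ℂ) 𝓘(ℂ, Fin n → ℂ) ω g)
    (hg' : ContMDiff 𝓘(ℂ, Fin n → ℂ) 𝓘(ℂ, Fin n → ℂ) ω g')
    (hl : ∀ x, g' (g x) = x) :
    ∃ C : ℝ, 0 ≤ C ∧ ∀ (m : ℕ) (s : AntiSection (Fin n → ℂ) F m) (c : ℂ), s.Nonzero →
      s.IsEigen g c → ‖c‖ ≤ C ^ m := by
  have : IsManifold 𝓘(ℂ, Fin n → ℂ) 1 F := IsManifold.of_le (n := ω) le_top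
  exact Meas.eigen_bound (hg.of_le le_top) (hg'.of_le le_top) hl

/-- A norm on the spaces of sections, in which pull back by a biholomorphism is bounded. -/
theorem exists_norm (m : ℕ) :
    ∃ N : AntiSection (Fin n → ℂ) F m → ℝ, (∀ s, 0 ≤ N s) ∧
      (∀ e ∈ atlas (Fin n → ℂ) F, ∀ x ∈ e.source, ∃ K : ℝ, 0 ≤ K ∧
        ∀ s : AntiSection (Fin n → ℂ) F m, ‖s.coeff e x‖ ≤ K * N s) ∧
      (∀ g g' : F → F, ContMDiff 𝓘(ℂ, Fin n → ℂ) 𝓘(ℂ, Fin n → ℂ) ω g →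
        ContMDiff 𝓘(ℂ, Fin n → ℂ) 𝓘(ℂ, Fin n → ℂ) ω g' → (∀ x, g' (g x) = x) →
        ∃ C : ℝ, 0 ≤ C ∧ ∀ s t : AntiSection (Fin n → ℂ) F m,
          (∀ e ∈ atlas (Fin n → ℂ) F, ∀ e' ∈ atlas (Fin n → ℂ) F, ∀ x ∈ e.source,
            g x ∈ e'.source → s.coeff e' (g x) = jac g e e' x ^ m * t.coeff e x) →
          N t ≤ C * N s) := by
  have : IsManifold 𝓘(ℂ, Fin n → ℂ) 1 F := IsManifold.of_le (n := ω) le_top
  obtain ⟨N, h1, h2, h3⟩ := Meas.exists_norm (n := n) (F := F) m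
  exact ⟨N, h1, h2, fun g g' hg hg' hl => h3 g g' (hg.of_le le_top) (hg'.of_le le_top) hl⟩

end Vale.Agent.P299
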