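import Mathlib
import Vale.Agent.P299.Defs

/-! Integration on a compact complex manifold by a finite measurable partition subordinate to
charts, change of variables under biholomorphisms, and the volume argument. -/

open scoped Manifold ContDiff Topology ENNReal
open MeasureTheory Set

noncomputable section

namespace Vale.Agent.P299.Meas

/-- The model space `ℂⁿ`. -/
abbrev Cn (n : ℕ) := Fin n → ℂ

/-- The real determinant of a complex linear map. -/
lemma abs_det_real {n : ℕ} (A : Cn n →L[ℂ] Cn n) :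
    |(A.restrictScalars ℝ).det| = ‖A.det‖ ^ 2 := by
  have : (A.restrictScalars ℝ).det = Algebra.norm ℝ A.det :=
    LinearMap.det_restrictScalars (R := ℝ) (f := (A : Cn n →ₗ[ℂ] Cn n))
  rw [this, Algebra.norm_complex_eq]
  simp [Complex.normSq_eq_norm_sq]

variable {n : ℕ} {F : Type*} [TopologicalSpace F] [ChartedSpace (Cn n) F]

/-- A finite measurable partition subordinate to charts, with compact hulls. -/
structure Part (n : ℕ) (F : Type*) [TopologicalSpace F] [MeasurableSpace F]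
    [ChartedSpace (Cn n) F] where
  N : ℕ
  c : Fin N → OpenPartialHomeomorph F (Cn n)
  mem : ∀ i, c i ∈ atlas (Cn n) F
  K : Fin N → Set F
  K_compact : ∀ i, IsCompact (K i)
  K_sub : ∀ i, K i ⊆ (c i).source
  A : Fin N → Set F
  A_meas : ∀ i, MeasurableSet (A i)
  A_sub : ∀ i, A i ⊆ K i
  A_disj : ∀ i j, i ≠ j → Disjoint (A i) (A j)
  A_cover : ⋃ i, A i = univ
  A_open : ∃ i, IsOpen (A i) ∧ (A i).Nonempty

lemma comp_differentiableAt [IsManifold 𝓘(ℂ, Cn n) 1 F] {g : F → F}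
    (hg : ContMDiff 𝓘(ℂ, Cn n) 𝓘(ℂ, Cn n) 1 g) {e e' : OpenPartialHomeomorph F (Cn n)}
    (he : e ∈ atlas (Cn n) F) (he' : e' ∈ atlas (Cn n) F) {x : F} (hx : x ∈ e.source)
    (hgx : g x ∈ e'.source) : ContDiffAt ℂ 1 (e' ∘ g ∘ e.symm) (e x) := by
  have h1 : ContMDiffAt 𝓘(ℂ, Cn n) 𝓘(ℂ, Cn n) 1 e.symm (e x) :=
    contMDiffAt_symm_of_mem_maximalAtlas (IsManifold.subset_maximalAtlas he)
      (e.map_source hx)
  have h2 : ContMDiffAt 𝓘(ℂ, Cn n) 𝓘(ℂ, Cn n) 1 g (e.symm (e x)) := hg.contMDiffAt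
  have h3 : ContMDiffAt 𝓘(ℂ, Cn n) 𝓘(ℂ, Cn n) 1 e' (g (e.symm (e x))) := by
    rw [e.left_inv hx]
    exact contMDiffAt_of_mem_maximalAtlas (IsManifold.subset_maximalAtlas he') hgx
  have h4 := (h3.comp (e x) (h2.comp (e x) h1))
  exact contMDiffAt_iff_contDiffAt.1 h4

section meas

variable [MeasurableSpace F] [BorelSpace F]

theorem exists_part [CompactSpace F] [T2Space F] [Nonempty F] : Nonempty (Part n F) := by
  classical
  have : LocallyCompactSpace F := ChartedSpace.locallyCompactSpace (Cn n) F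
  have h1 : ∀ x : F, ∃ K : Set F, K ∈ 𝓝 x ∧ IsCompact K ∧ K ⊆ (chartAt (Cn n) x).source := by
    intro x
    obtain ⟨K, hK, hsub, hc⟩ := local_compact_nhds (chart_source_mem_nhds (Cn n) x)
    exact ⟨K, hK, hc, hsub⟩
  choose K hK hKc hKs using h1
  obtain ⟨x0⟩ := (inferInstance : Nonempty F)
  obtain ⟨t, -, ht⟩ := (isCompact_univ (X := F)).elim_nhds_subcover (fun x => interior (K x))
    (fun x _ => interior_mem_nhds.mpr (hK x))
  let e : Fin t.card ≃ t := t.equivFin.symm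
  let U : Fin t.card → Set F := fun i => interior (K (e i))
  have hU : ⋃ i, U i = univ := by
    apply eq_univ_of_univ_subset
    intro x hx
    obtain ⟨y, hy, hxy⟩ := mem_iUnion₂.1 (ht hx)
    refine mem_iUnion.2 ⟨e.symm ⟨y, hy⟩, ?_⟩
    simpa [U] using hxy
  let A : Fin t.card → Set F := fun i => U i \ ⋃ j : {j // j < i}, U j
  have hcov : ⋃ i, A i = univ := by
    apply eq_univ_of_univ_subset
    intro x _
    have hx : x ∈ ⋃ i, U i := by rw [hU]; trivial
    obtain ⟨i, hi⟩ := mem_iUnion.1 hx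
    let S : Finset (Fin t.card) := Finset.univ.filter (fun i => x ∈ U i)
    have hS : S.Nonempty := ⟨i, by simp [S, hi]⟩
    have h1 := S.min'_mem hS
    refine mem_iUnion.2 ⟨S.min' hS, (Finset.mem_filter.1 h1).2, ?_⟩
    intro h
    obtain ⟨⟨j, hj⟩, hxj⟩ := mem_iUnion.1 h
    have : j ∈ S := by simpa [S] using hxj
    exact absurd (S.min'_le j this) (not_le.mpr hj)
  refine ⟨⟨t.card, fun i => chartAt (Cn n) (e i : F), fun i => chart_mem_atlas _ _,
    fun i => K (e i), fun i => hKc _, fun i => hKs _, A, ?_, ?_, ?_, hcov, ?_⟩⟩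
  · intro i
    exact isOpen_interior.measurableSet.diff
      (isOpen_iUnion fun j => isOpen_interior).measurableSet
  · intro i x hx
    exact interior_subset hx.1
  · intro i j hij
    rw [Set.disjoint_left]
    intro x hx hy
    rcases lt_or_gt_of_ne hij with h | h
    · exact hy.2 (mem_iUnion.2 ⟨⟨i, h⟩, hx.1⟩)
    · exact hx.2 (mem_iUnion.2 ⟨⟨j, h⟩, hy.1⟩)
  · let S : Finset (Fin t.card) := Finset.univ.filter (fun i => (U i).Nonempty)
    have hS : S.Nonempty := by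
      have hx : x0 ∈ ⋃ i, U i := by rw [hU]; trivial
      obtain ⟨i, hi⟩ := mem_iUnion.1 hx
      exact ⟨i, by simp only [S, Finset.mem_filter, Finset.mem_univ, true_and]; exact ⟨x0, hi⟩⟩
    have h1 := (Finset.mem_filter.1 (S.min'_mem hS)).2
    have h2 : A (S.min' hS) = U (S.min' hS) := by
      apply Set.Subset.antisymm
      · intro x hx; exact hx.1
      · intro x hx
        refine ⟨hx, ?_⟩
        intro h
        obtain ⟨⟨j, hj⟩, hxj⟩ := mem_iUnion.1 h
        have : j ∈ S := by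
          simp only [S, Finset.mem_filter, Finset.mem_univ, true_and]; exact ⟨x, hxj⟩
        exact absurd (S.min'_le j this) (not_le.mpr hj)
    exact ⟨S.min' hS, by rw [h2]; exact isOpen_interior, by rw [h2]; exact h1⟩

/-- Images of measurable sets under charts are measurable. -/
lemma measurableSet_image (e : OpenPartialHomeomorph F (Cn n)) {A : Set F} (hA : MeasurableSet A)
    (hs : A ⊆ e.source) : MeasurableSet (e '' A) := by
  have h1 : e '' A = e.target ∩ e.symm ⁻¹' A := e.image_eq_target_inter_inv_preimage hs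
  have h2 : e.target ∩ e.symm ⁻¹' A = Subtype.val '' ((e.target.domRestrict e.symm) ⁻¹' A) := by
    ext x
    constructor
    · rintro ⟨h, h'⟩
      exact ⟨⟨x, h⟩, h', rfl⟩
    · rintro ⟨⟨y, hy⟩, h, rfl⟩
      exact ⟨hy, h⟩
  rw [h1, h2]
  refine e.open_target.measurableSet.subtype_image ?_
  have hc : Continuous (e.target.domRestrict e.symm) := e.continuousOn_symm.domRestrict
  exact hc.measurable hA

namespace Part

variable (P : Part n F)

lemma A_sub_source (i : Fin P.N) : P.A i ⊆ (P.c i).source := (P.A_sub i).trans (P.K_sub i)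

lemma exists_idx (x : F) : ∃ i, x ∈ P.A i := by
  have : x ∈ ⋃ i, P.A i := by rw [P.A_cover]; trivial
  exact mem_iUnion.1 this

/-- The index of the piece of `x`. -/
def idx (x : F) : Fin P.N := (P.exists_idx x).choose

lemma mem_idx (x : F) : x ∈ P.A (P.idx x) := (P.exists_idx x).choose_spec

lemma idx_eq {x : F} {i : Fin P.N} (h : x ∈ P.A i) : P.idx x = i := by
  by_contra hne
  exact (Set.disjoint_left.1 (P.A_disj _ _ hne)) (P.mem_idx x) h

/-- The chart used at `x`. -/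
def r (x : F) : OpenPartialHomeomorph F (Cn n) := P.c (P.idx x)

lemma r_mem (x : F) : P.r x ∈ atlas (Cn n) F := P.mem _

lemma mem_r_source (x : F) : x ∈ (P.r x).source := P.A_sub_source _ (P.mem_idx x)

/-- The integral of a function. -/
def I (u : F → ℝ≥0∞) : ℝ≥0∞ :=
  ∑ i, ∫⁻ w in (P.c i) '' (P.A i), u ((P.c i).symm w)

lemma meas_image {i : Fin P.N} {S : Set F} (hS : MeasurableSet S) (h : S ⊆ P.A i) :
    MeasurableSet ((P.c i) '' S) :=
  measurableSet_image _ hS (h.trans (P.A_sub_source i))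

lemma I_mono {u v : F → ℝ≥0∞} (h : ∀ x, u x ≤ v x) : P.I u ≤ P.I v :=
  Finset.sum_le_sum fun _ _ => lintegral_mono fun _ => h _

lemma I_const_mul {u : F → ℝ≥0∞} {a : ℝ≥0∞} (ha : a ≠ ⊤) : P.I (fun x => a * u x) = a * P.I u := by
  unfold I
  rw [Finset.mul_sum]
  exact Finset.sum_congr rfl fun i _ => lintegral_const_mul' _ _ ha

lemma I_one_ne_zero : P.I (fun _ => 1) ≠ 0 := by
  obtain ⟨i, ho, hne⟩ := P.A_open
  intro h0
  have h1 : ∫⁻ w in (P.c i) '' (P.A i), (1 : ℝ≥0∞) = 0 := by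
    have := Finset.sum_eq_zero_iff.1 h0 i (Finset.mem_univ i)
    exact this
  rw [setLIntegral_one] at h1
  have h3 : IsOpen ((P.c i) '' (P.A i)) :=
    (P.c i).isOpen_image_of_subset_source ho (P.A_sub_source i)
  exact (h3.measure_pos volume (hne.image _)).ne' h1

lemma I_pos {u : F → ℝ≥0∞} {δ : ℝ≥0∞} (hδ : δ ≠ 0) (hδ' : δ ≠ ⊤) (h : ∀ x, δ ≤ u x) :
    P.I u ≠ 0 := by
  have h1 : δ * P.I (fun _ => 1) ≤ P.I u := by
    rw [← P.I_const_mul hδ']
    exact P.I_mono fun x => by simpa using h x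
  intro h0
  rw [h0, nonpos_iff_eq_zero] at h1
  rcases mul_eq_zero.1 h1 with h | h
  · exact hδ h
  · exact P.I_one_ne_zero h

/-- The Jacobian determinant of `g` at `x` in the charts of the partition. -/
def J (g : F → F) (x : F) : ℂ :=
  (fderiv ℂ ((P.r (g x)) ∘ g ∘ (P.r x).symm) (P.r x x)).det

/-- The set of points of `A i` mapped by `g` to `A k`. -/
def S (g : F → F) (i k : Fin P.N) : Set F := P.A i ∩ g ⁻¹' (P.A k)

lemma S_meas {g : F → F} (hg : Continuous g) (i k : Fin P.N) : MeasurableSet (P.S g i k) :=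
  (P.A_meas i).inter (hg.measurable (P.A_meas k))

lemma image_S (g : F → F) (i k : Fin P.N) : (P.c k) '' (g '' (P.S g i k)) =
    ((P.c k) ∘ g ∘ (P.c i).symm) '' ((P.c i) '' (P.S g i k)) := by
  ext w
  constructor
  · rintro ⟨_, ⟨x, hx, rfl⟩, rfl⟩
    refine ⟨P.c i x, ⟨x, hx, rfl⟩, ?_⟩
    simp [(P.c i).left_inv (P.A_sub_source i hx.1)]
  · rintro ⟨_, ⟨x, hx, rfl⟩, rfl⟩
    refine ⟨g x, ⟨x, hx, rfl⟩, ?_⟩
    simp [(P.c i).left_inv (P.A_sub_source i hx.1)]

lemma hasFDerivWithinAt_S [IsManifold 𝓘(ℂ, Cn n) 1 F] {g : F → F}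
    (hg : ContMDiff 𝓘(ℂ, Cn n) 𝓘(ℂ, Cn n) 1 g) (i k : Fin P.N) :
    ∀ w ∈ (P.c i) '' (P.S g i k), HasFDerivWithinAt ((P.c k) ∘ g ∘ (P.c i).symm)
      ((fderiv ℂ ((P.c k) ∘ g ∘ (P.c i).symm) w).restrictScalars ℝ)
      ((P.c i) '' (P.S g i k)) w := by
  rintro _ ⟨x, hx, rfl⟩
  have h := comp_differentiableAt hg (P.mem i) (P.mem k) (P.A_sub_source i hx.1)
    (P.A_sub_source k hx.2)
  have h1 : DifferentiableAt ℂ ((P.c k) ∘ g ∘ (P.c i).symm) (P.c i x) :=
    h.differentiableAt (by simp)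
  exact (h1.hasFDerivAt.restrictScalars ℝ).hasFDerivWithinAt

lemma injOn_S {g : F → F} (hb : Function.Injective g) (i k : Fin P.N) :
    InjOn ((P.c k) ∘ g ∘ (P.c i).symm) ((P.c i) '' (P.S g i k)) := by
  rintro _ ⟨x, hx, rfl⟩ _ ⟨y, hy, rfl⟩ h
  simp only [Function.comp_apply, (P.c i).left_inv (P.A_sub_source i hx.1),
    (P.c i).left_inv (P.A_sub_source i hy.1)] at h
  have h2 := (P.c k).injOn (P.A_sub_source k hx.2) (P.A_sub_source k hy.2) h
  rw [hb h2]

/-- Change of variables. -/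
theorem I_comp [IsManifold 𝓘(ℂ, Cn n) 1 F] {g : F → F}
    (hg : ContMDiff 𝓘(ℂ, Cn n) 𝓘(ℂ, Cn n) 1 g) (hb : Function.Bijective g) (u : F → ℝ≥0∞) :
    P.I (fun x => ENNReal.ofReal (‖P.J g x‖ ^ 2) * u (g x)) = P.I u := by
  classical
  have hgc : Continuous g := hg.continuous
  -- the left side
  have hL : P.I (fun x => ENNReal.ofReal (‖P.J g x‖ ^ 2) * u (g x)) =
      ∑ i, ∑ k, ∫⁻ w in (P.c i) '' (P.S g i k),
        ENNReal.ofReal (‖P.J g ((P.c i).symm w)‖ ^ 2) * u (g ((P.c i).symm w)) := by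
    unfold I
    refine Finset.sum_congr rfl fun i _ => ?_
    have h1 : (P.c i) '' (P.A i) = ⋃ k, (P.c i) '' (P.S g i k) := by
      rw [← image_iUnion]
      congr 1
      ext x
      simp only [S, mem_iUnion, mem_inter_iff, mem_preimage]
      exact ⟨fun hx => ⟨P.idx (g x), hx, P.mem_idx _⟩, fun ⟨k, hx, _⟩ => hx⟩
    rw [h1, lintegral_iUnion, tsum_fintype]
    · intro k
      exact P.meas_image (P.S_meas hgc i k) inter_subset_left
    · intro k l hkl
      rw [Function.onFun, Set.disjoint_left]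
      rintro _ ⟨x, hx, rfl⟩ ⟨y, hy, hxy⟩
      have : y = x := (P.c i).injOn (P.A_sub_source i hy.1) (P.A_sub_source i hx.1) hxy
      subst this
      exact Set.disjoint_left.1 (P.A_disj k l hkl) hx.2 hy.2
  have hR : P.I u = ∑ k, ∑ i, ∫⁻ w in (P.c k) '' (g '' (P.S g i k)), u ((P.c k).symm w) := by
    unfold I
    refine Finset.sum_congr rfl fun k _ => ?_
    have h1 : (P.c k) '' (P.A k) = ⋃ i, (P.c k) '' (g '' (P.S g i k)) := by
      rw [← image_iUnion, ← image_iUnion]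
      congr 1
      ext y
      constructor
      · intro hy
        obtain ⟨x, rfl⟩ := hb.2 y
        exact ⟨x, mem_iUnion.2 ⟨P.idx x, P.mem_idx x, hy⟩, rfl⟩
      · rintro ⟨x, hx, rfl⟩
        obtain ⟨i, hx⟩ := mem_iUnion.1 hx
        exact hx.2
    rw [h1, lintegral_iUnion, tsum_fintype]
    · intro i
      rw [P.image_S]
      exact measurable_image_of_fderivWithin (P.meas_image (P.S_meas hgc i k) inter_subset_left)
        (P.hasFDerivWithinAt_S hg i k) (P.injOn_S hb.1 i k)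
    · intro i j hij
      rw [Function.onFun, Set.disjoint_left]
      rintro _ ⟨_, ⟨x, hx, rfl⟩, rfl⟩ ⟨_, ⟨y, hy, rfl⟩, hxy⟩
      have h2 : g y = g x := (P.c k).injOn (P.A_sub_source k hy.2) (P.A_sub_source k hx.2) hxy
      have : y = x := hb.1 h2
      subst this
      exact Set.disjoint_left.1 (P.A_disj i j hij) hx.1 hy.1
  rw [hL, hR, Finset.sum_comm]
  refine Finset.sum_congr rfl fun k _ => Finset.sum_congr rfl fun i _ => ?_
  rw [P.image_S, lintegral_image_eq_lintegral_abs_det_fderiv_mul volume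
    (P.meas_image (P.S_meas hgc i k) inter_subset_left)
    (P.hasFDerivWithinAt_S hg i k) (P.injOn_S hb.1 i k)]
  refine setLIntegral_congr_fun (P.meas_image (P.S_meas hgc i k) inter_subset_left) ?_
  rintro _ ⟨x, hx, rfl⟩
  have hx1 : P.r x = P.c i := by rw [r, P.idx_eq hx.1]
  have hx2 : P.r (g x) = P.c k := by rw [r, P.idx_eq hx.2]
  have e1 : (P.c i).symm (P.c i x) = x := (P.c i).left_inv (P.A_sub_source i hx.1)
  have e2 : (P.c k).symm (P.c k (g x)) = g x := (P.c k).left_inv (P.A_sub_source k hx.2)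
  simp only [Function.comp_apply, e1, e2, J, hx1, hx2]
  rw [abs_det_real]

theorem J_bound [IsManifold 𝓘(ℂ, Cn n) 1 F] [T2Space F] {g : F → F}
    (hg : ContMDiff 𝓘(ℂ, Cn n) 𝓘(ℂ, Cn n) 1 g) : ∃ C : ℝ, 1 ≤ C ∧ ∀ x, ‖P.J g x‖ ^ 2 ≤ C := by
  have hgc : Continuous g := hg.continuous
  have h1 : ∀ i k : Fin P.N, ∃ C : ℝ, ∀ x ∈ P.K i ∩ g ⁻¹' (P.K k),
      ‖(fderiv ℂ ((P.c k) ∘ g ∘ (P.c i).symm) (P.c i x)).det‖ ^ 2 ≤ C := by
    intro i k
    have hK : IsCompact (P.K i ∩ g ⁻¹' (P.K k)) :=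
      (P.K_compact i).inter_right ((P.K_compact k).isClosed.preimage hgc)
    have hc : ContinuousOn (fun x => ‖(fderiv ℂ ((P.c k) ∘ g ∘ (P.c i).symm) (P.c i x)).det‖ ^ 2)
        (P.K i ∩ g ⁻¹' (P.K k)) := by
      intro x hx
      apply ContinuousAt.continuousWithinAt
      have h := comp_differentiableAt hg (P.mem i) (P.mem k) (P.K_sub i hx.1) (P.K_sub k hx.2)
      have h2 : ContinuousAt (fderiv ℂ ((P.c k) ∘ g ∘ (P.c i).symm)) (P.c i x) :=
        (h.fderiv_right (m := 0) (by simp)).continuousAt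
      have h3 : ContinuousAt (P.c i) x := (P.c i).continuousAt (P.K_sub i hx.1)
      have h4 : ContinuousAt (fun x => fderiv ℂ ((P.c k) ∘ g ∘ (P.c i).symm) (P.c i x)) x :=
        ContinuousAt.comp (f := (P.c i)) (g := fderiv ℂ ((P.c k) ∘ g ∘ (P.c i).symm)) h2 h3
      have h5 : Continuous (fun A : Cn n →L[ℂ] Cn n => ‖A.det‖ ^ 2) :=
        (ContinuousLinearMap.continuous_det.norm).pow 2
      exact h5.continuousAt.comp h4
    obtain ⟨C, hC⟩ := hK.exists_bound_of_continuousOn hc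
    exact ⟨C, fun x hx => (le_abs_self _).trans (by simpa using hC x hx)⟩
  choose C hC using h1
  refine ⟨1 + ∑ i, ∑ k, |C i k|, ?_, fun x => ?_⟩
  · have : 0 ≤ ∑ i, ∑ k, |C i k| :=
      Finset.sum_nonneg fun i _ => Finset.sum_nonneg fun k _ => abs_nonneg _
    linarith
  · have h2 := hC (P.idx x) (P.idx (g x)) x ⟨P.A_sub _ (P.mem_idx x), P.A_sub _ (P.mem_idx (g x))⟩
    have h3 : |C (P.idx x) (P.idx (g x))| ≤ ∑ i, ∑ k, |C i k| := by
      calc |C (P.idx x) (P.idx (g x))| ≤ ∑ k, |C (P.idx x) k| :=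
            Finset.single_le_sum (f := fun k => |C (P.idx x) k|) (fun _ _ => abs_nonneg _)
              (Finset.mem_univ _)
        _ ≤ ∑ i, ∑ k, |C i k| :=
            Finset.single_le_sum (f := fun i => ∑ k, |C i k|)
              (fun _ _ => Finset.sum_nonneg fun _ _ => abs_nonneg _) (Finset.mem_univ _)
    have h4 : ‖P.J g x‖ ^ 2 ≤ C (P.idx x) (P.idx (g x)) := h2
    have h5 := le_abs_self (C (P.idx x) (P.idx (g x)))
    linarith

/-- The volume argument: a biholomorphism cannot expand all members of a family of sections of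
`-mK` whose base ideal is log canonical. Here `S x` is the sum of the squares of the norms. -/
theorem no_expansion [IsManifold 𝓘(ℂ, Cn n) 1 F] [T2Space F] {g : F → F}
    (hg : ContMDiff 𝓘(ℂ, Cn n) 𝓘(ℂ, Cn n) 1 g) (hb : Function.Bijective g)
    {m : ℕ} (hm : 1 ≤ m) (S : F → ℝ) (B : ℝ) (hB : ∀ x, S x ≤ B)
    (lam : ℝ) (hlam : 1 < lam)
    (hexp : ∀ x, lam * (‖P.J g x‖ ^ 2) ^ m * S x ≤ S (g x))
    (hlc : ∀ c : ℝ, 0 < c → c < 1 → P.I (fun x => ENNReal.ofReal (S x) ^ (-(c / m))) ≠ ⊤) :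
    False := by
  obtain ⟨C, hC1, hC⟩ := P.J_bound hg
  have hm0 : (0 : ℝ) < m := by exact_mod_cast hm
  -- the main inequality
  have key : ∀ c : ℝ, 0 < c → c < 1 → 1 ≤ lam ^ (-(c / m)) * C ^ (1 - c) := by
    intro c hc0 hc1
    have hcm : 0 < c / m := by positivity
    set u : F → ℝ≥0∞ := fun x => ENNReal.ofReal (S x) ^ (-(c / m)) with hu
    have ha0 : 0 < lam ^ (-(c / m)) * C ^ (1 - c) := by positivity
    set a : ℝ≥0∞ := ENNReal.ofReal (lam ^ (-(c / m)) * C ^ (1 - c)) with ha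
    have h1 : P.I u ≤ a * P.I u := by
      have h0 : P.I (fun x => ENNReal.ofReal (‖P.J g x‖ ^ 2) * u (g x)) ≤
          P.I (fun x => a * u x) := ?_
      · rw [P.I_comp hg hb u, P.I_const_mul ENNReal.ofReal_ne_top] at h0
        exact h0
      refine P.I_mono fun x => ?_
      rcases (sq_nonneg ‖P.J g x‖).eq_or_lt with hj | hj
      · rw [← hj]; simp
      · have e1 : u (g x) ≤ (ENNReal.ofReal (lam * (‖P.J g x‖ ^ 2) ^ m) * ENNReal.ofReal (S x))
            ^ (-(c / m)) := by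
          rw [hu]
          simp only [ENNReal.rpow_neg]
          rw [ENNReal.inv_le_inv]
          refine ENNReal.rpow_le_rpow ?_ hcm.le
          rw [← ENNReal.ofReal_mul (by positivity)]
          exact ENNReal.ofReal_le_ofReal (hexp x)
        rw [ENNReal.mul_rpow_of_ne_top ENNReal.ofReal_ne_top ENNReal.ofReal_ne_top] at e1
        have e2 : (ENNReal.ofReal (lam * (‖P.J g x‖ ^ 2) ^ m)) ^ (-(c / m)) =
            ENNReal.ofReal (lam ^ (-(c / m)) * (‖P.J g x‖ ^ 2) ^ (-c)) := by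
          rw [ENNReal.ofReal_rpow_of_pos (by positivity),
            Real.mul_rpow (by positivity) (by positivity)]
          congr 2
          rw [← Real.rpow_natCast, ← Real.rpow_mul (by positivity)]
          congr 1
          field_simp
        rw [e2] at e1
        calc ENNReal.ofReal (‖P.J g x‖ ^ 2) * u (g x)
            ≤ ENNReal.ofReal (‖P.J g x‖ ^ 2) *
              (ENNReal.ofReal (lam ^ (-(c / m)) * (‖P.J g x‖ ^ 2) ^ (-c)) *
                ENNReal.ofReal (S x) ^ (-(c / m))) := by gcongr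
          _ = ENNReal.ofReal (lam ^ (-(c / m)) * (‖P.J g x‖ ^ 2) ^ (1 - c)) * u x := by
              rw [← mul_assoc, ← ENNReal.ofReal_mul (by positivity)]
              congr 2
              rw [sub_eq_add_neg, Real.rpow_add hj, Real.rpow_one]
              ring
          _ ≤ a * u x := by
              gcongr
              rw [ha]
              apply ENNReal.ofReal_le_ofReal
              have : (‖P.J g x‖ ^ 2) ^ (1 - c) ≤ C ^ (1 - c) :=
                Real.rpow_le_rpow (by positivity) (hC x) (by linarith)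
              gcongr
    have h2 : P.I u ≠ ⊤ := hlc c hc0 hc1
    have h3 : P.I u ≠ 0 := by
      have hB' : 0 < max B 1 := lt_of_lt_of_le one_pos (le_max_right _ _)
      refine P.I_pos (δ := ENNReal.ofReal (max B 1) ^ (-(c / m))) ?_ ?_ fun x => ?_
      · rw [ENNReal.rpow_neg]
        simp only [ne_eq, ENNReal.inv_eq_zero]
        exact ENNReal.rpow_ne_top_of_nonneg hcm.le ENNReal.ofReal_ne_top
      · rw [ENNReal.ofReal_rpow_of_pos hB']
        exact ENNReal.ofReal_ne_top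
      · rw [hu]
        simp only [ENNReal.rpow_neg]
        rw [ENNReal.inv_le_inv]
        exact ENNReal.rpow_le_rpow (ENNReal.ofReal_le_ofReal ((hB x).trans (le_max_left _ _)))
          hcm.le
    have h4 : 1 ≤ a := by
      rw [← ENNReal.mul_le_mul_iff_left h3 h2, one_mul]
      exact h1
    rw [ha, ENNReal.one_le_ofReal] at h4
    exact h4
  -- the limit `c → 1`
  have hlim : Filter.Tendsto (fun c : ℝ => lam ^ (-(c / m)) * C ^ (1 - c)) (𝓝[<] 1)
      (𝓝 (lam ^ (-((1 : ℝ) / m)) * C ^ ((1 : ℝ) - 1))) := by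
    have hl0 : (0 : ℝ) < lam := by linarith
    have hC0 : (0 : ℝ) < C := by linarith
    have : Continuous (fun c : ℝ => lam ^ (-(c / m)) * C ^ (1 - c)) := by
      apply Continuous.mul
      · exact Continuous.rpow continuous_const (by fun_prop) fun _ => Or.inl hl0.ne'
      · exact Continuous.rpow continuous_const (by fun_prop) fun _ => Or.inl hC0.ne'
    exact this.continuousWithinAt.tendsto
  have h5 : 1 ≤ lam ^ (-((1 : ℝ) / m)) * C ^ ((1 : ℝ) - 1) := by
    refine ge_of_tendsto hlim ?_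
    have h6 : Ioo (0 : ℝ) 1 ∈ 𝓝[<] (1 : ℝ) := Ioo_mem_nhdsLT one_pos
    filter_upwards [h6] with c hc
    exact key c hc.1 hc.2
  rw [sub_self, Real.rpow_zero, mul_one] at h5
  have h7 : lam ^ (-((1 : ℝ) / m)) < 1 :=
    Real.rpow_lt_one_of_one_lt_of_neg hlam (by simp; positivity)
  linarith

end Part

end meas

section sections

variable {m : ℕ}

/-- Chain rule for the Jacobians. -/
lemma jac_mul_jac_inv [IsManifold 𝓘(ℂ, Cn n) 1 F] {g g' : F → F}
    (hg : ContMDiff 𝓘(ℂ, Cn n) 𝓘(ℂ, Cn n) 1 g) (hg' : ContMDiff 𝓘(ℂ, Cn n) 𝓘(ℂ, Cn n) 1 g')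
    (hl : ∀ x, g' (g x) = x)
    {e e' : OpenPartialHomeomorph F (Cn n)} (he : e ∈ atlas (Cn n) F) (he' : e' ∈ atlas (Cn n) F)
    {x : F} (hx : x ∈ e.source) (hgx : g x ∈ e'.source) :
    jac g' e' e (g x) * jac g e e' x = 1 := by
  have h1 := (comp_differentiableAt hg he he' hx hgx).differentiableAt one_ne_zero
  have h2 := (comp_differentiableAt hg' he' he hgx (by rw [hl]; exact hx)).differentiableAt
    one_ne_zero
  have e1 : (e' ∘ g ∘ e.symm) (e x) = e' (g x) := by simp [e.left_inv hx]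
  have h3 : (fderiv ℂ ((e ∘ g' ∘ e'.symm) ∘ (e' ∘ g ∘ e.symm)) (e x)) =
      (fderiv ℂ (e ∘ g' ∘ e'.symm) (e' (g x))).comp (fderiv ℂ (e' ∘ g ∘ e.symm) (e x)) := by
    rw [fderiv_comp (e x) (by rw [e1]; exact h2) h1, e1]
  have h4 : ((e ∘ g' ∘ e'.symm) ∘ (e' ∘ g ∘ e.symm)) =ᶠ[𝓝 (e x)] id := by
    have hc : ContinuousAt (fun w => g (e.symm w)) (e x) :=
      hg.continuous.continuousAt.comp (e.continuousAt_symm (e.map_source hx))
    have h5 : ∀ᶠ w in 𝓝 (e x), g (e.symm w) ∈ e'.source := by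
      apply hc.eventually_mem
      rw [e.left_inv hx]
      exact e'.open_source.mem_nhds hgx
    have h6 : ∀ᶠ w in 𝓝 (e x), w ∈ e.target := e.open_target.mem_nhds (e.map_source hx)
    filter_upwards [h5, h6] with w hw hw'
    simp only [Function.comp_apply, id]
    rw [e'.left_inv hw, hl, e.right_inv hw']
  rw [h4.fderiv_eq, fderiv_id] at h3
  have h7 : (ContinuousLinearMap.id ℂ (Cn n)).det = 1 := by
    simp [ContinuousLinearMap.det]
  unfold jac
  rw [← h7, h3]
  exact (LinearMap.det_comp _ _).symm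

lemma jac_id_ne_zero [IsManifold 𝓘(ℂ, Cn n) 1 F]
    {e e' : OpenPartialHomeomorph F (Cn n)} (he : e ∈ atlas (Cn n) F) (he' : e' ∈ atlas (Cn n) F)
    {x : F} (hx : x ∈ e.source) (hx' : x ∈ e'.source) : jac id e e' x ≠ 0 := by
  have := jac_mul_jac_inv (F := F) (g := id) (g' := id) contMDiff_id contMDiff_id (fun _ => rfl)
    he he' hx hx'
  intro h
  rw [h, mul_zero] at this
  exact zero_ne_one this

lemma coeff_continuousOn (s : AntiSection (Cn n) F m) {e : OpenPartialHomeomorph F (Cn n)}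
    (he : e ∈ atlas (Cn n) F) : ContinuousOn (s.coeff e) e.source := by
  have h1 := (s.holo e he).continuousOn
  have h2 : ContinuousOn ((s.coeff e ∘ e.symm) ∘ e) e.source :=
    h1.comp e.continuousOn e.mapsTo
  refine h2.congr fun x hx => ?_
  simp [e.left_inv hx]

namespace Part

variable [MeasurableSpace F] [BorelSpace F] (P : Part n F)

/-- The norm of a section in the frames of the partition. -/
def nrm (s : AntiSection (Cn n) F m) (x : F) : ℝ := ‖s.coeff (P.r x) x‖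

lemma nrm_bounded (s : AntiSection (Cn n) F m) : ∃ B : ℝ, ∀ x, P.nrm s x ≤ B := by
  have h1 : ∀ i, ∃ B : ℝ, ∀ x ∈ P.K i, ‖s.coeff (P.c i) x‖ ≤ B := fun i =>
    (P.K_compact i).exists_bound_of_continuousOn
      ((coeff_continuousOn s (P.mem i)).mono (P.K_sub i))
  choose B hB using h1
  refine ⟨∑ i, |B i|, fun x => ?_⟩
  have h2 : P.nrm s x ≤ B (P.idx x) := hB _ x (P.A_sub _ (P.mem_idx x))
  exact h2.trans ((le_abs_self _).trans
    (Finset.single_le_sum (f := fun i => |B i|) (fun _ _ => abs_nonneg _) (Finset.mem_univ _)))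

lemma J_eq (g : F → F) (x : F) : P.J g x = jac g (P.r x) (P.r (g x)) x := rfl

lemma nrm_eigen {s : AntiSection (Cn n) F m} {g : F → F} {c : ℂ} (h : s.IsEigen g c) (x : F) :
    P.nrm s (g x) = ‖c‖ * ‖P.J g x‖ ^ m * P.nrm s x := by
  unfold nrm
  rw [h _ (P.r_mem x) _ (P.r_mem (g x)) x (P.mem_r_source x) (P.mem_r_source (g x)), P.J_eq]
  simp

lemma nrm_nonneg (s : AntiSection (Cn n) F m) (x : F) : 0 ≤ P.nrm s x := norm_nonneg _

lemma exists_nrm_pos [IsManifold 𝓘(ℂ, Cn n) 1 F] {s : AntiSection (Cn n) F m}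
    (hs : s.Nonzero) : ∃ x, 0 < P.nrm s x := by
  obtain ⟨e, he, x, hx, h⟩ := hs
  refine ⟨x, norm_pos_iff.2 ?_⟩
  have h1 := s.compat _ (P.r_mem x) e he x ⟨P.mem_r_source x, hx⟩
  intro h0
  rw [h0, mul_zero] at h1
  exact h h1

end Part

/-- Eigenvalues of a biholomorphism on sections are bounded. -/
theorem eigen_bound [CompactSpace F] [T2Space F] [IsManifold 𝓘(ℂ, Cn n) 1 F] {g g' : F → F}
    (hg : ContMDiff 𝓘(ℂ, Cn n) 𝓘(ℂ, Cn n) 1 g) (hg' : ContMDiff 𝓘(ℂ, Cn n) 𝓘(ℂ, Cn n) 1 g')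
    (hl : ∀ x, g' (g x) = x) :
    ∃ C : ℝ, 0 ≤ C ∧ ∀ (m : ℕ) (s : AntiSection (Cn n) F m) (c : ℂ), s.Nonzero →
      s.IsEigen g c → ‖c‖ ≤ C ^ m := by
  rcases isEmpty_or_nonempty F with hF | hF
  · refine ⟨0, le_rfl, fun m s c hs => ?_⟩
    obtain ⟨_, _, x, _⟩ := hs
    exact (hF.false x).elim
  borelize F
  obtain ⟨P⟩ := exists_part (n := n) (F := F)
  obtain ⟨C, hC1, hC⟩ := P.J_bound hg'
  refine ⟨√C, Real.sqrt_nonneg _, fun m s c hs he => ?_⟩
  obtain ⟨B, hB⟩ := P.nrm_bounded s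
  obtain ⟨x0, hx0⟩ := P.exists_nrm_pos hs
  set T : ℝ := ⨆ x, P.nrm s x with hT
  have hbdd : BddAbove (range (P.nrm s)) := ⟨B, by rintro _ ⟨x, rfl⟩; exact hB x⟩
  have hT0 : 0 < T := hx0.trans_le (le_ciSup hbdd x0)
  have h1 : ∀ x, ‖c‖ * P.nrm s x ≤ √C ^ m * T := by
    intro x
    have h2 : P.J g' (g x) * P.J g x = 1 := by
      have := jac_mul_jac_inv hg hg' hl (P.r_mem x) (P.r_mem (g x)) (P.mem_r_source x)
        (P.mem_r_source (g x))
      rw [P.J_eq, P.J_eq, hl]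
      exact this
    have h3 : ‖P.J g' (g x)‖ ≤ √C := Real.le_sqrt_of_sq_le (hC (g x))
    have h4 := P.nrm_eigen he x
    have h5 : ‖P.J g' (g x)‖ * ‖P.J g x‖ = 1 := by rw [← norm_mul, h2, norm_one]
    calc ‖c‖ * P.nrm s x = (‖P.J g' (g x)‖ * ‖P.J g x‖) ^ m * (‖c‖ * P.nrm s x) := by
          rw [h5, one_pow, one_mul]
      _ = ‖P.J g' (g x)‖ ^ m * P.nrm s (g x) := by rw [h4, mul_pow]; ring
      _ ≤ √C ^ m * T := by
          have h6 := P.nrm_nonneg s (g x)
          have h7 : P.nrm s (g x) ≤ T := le_ciSup hbdd (g x)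
          gcongr
  have h2 : ‖c‖ * T ≤ √C ^ m * T := by
    rw [hT, Real.mul_iSup_of_nonneg (norm_nonneg c)]
    exact ciSup_le h1
  exact le_of_mul_le_mul_right h2 hT0

/-- The volume argument for a log canonical family of eigensections. -/
theorem no_expansion_family [CompactSpace F] [T2Space F] [Nonempty F]
    [IsManifold 𝓘(ℂ, Cn n) 1 F] {ι : Type*} [Fintype ι] (hm : 1 ≤ m)
    (s : ι → AntiSection (Cn n) F m) (hlc : IsLC s) {g : F → F}
    (hg : ContMDiff 𝓘(ℂ, Cn n) 𝓘(ℂ, Cn n) 1 g) (hb : Function.Bijective g)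
    (c : ι → ℂ) (L : ℝ) (hL : 1 < L) (hc : ∀ i, L ≤ ‖c i‖) (he : ∀ i, (s i).IsEigen g (c i)) :
    False := by
  borelize F
  obtain ⟨P⟩ := exists_part (n := n) (F := F)
  have hB := fun i => P.nrm_bounded (s i)
  choose B hB using hB
  refine P.no_expansion hg hb hm (fun x => ∑ i, P.nrm (s i) x ^ 2) (∑ i, B i ^ 2) ?_ (L ^ 2)
    (by nlinarith) ?_ ?_
  · intro x
    refine Finset.sum_le_sum fun i _ => ?_
    exact pow_le_pow_left₀ (P.nrm_nonneg _ _) (hB i x) 2
  · intro x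
    rw [Finset.mul_sum]
    refine Finset.sum_le_sum fun i _ => ?_
    rw [P.nrm_eigen (he i) x]
    have h1 : L ^ 2 ≤ ‖c i‖ ^ 2 := pow_le_pow_left₀ (by linarith) (hc i) 2
    calc L ^ 2 * (‖P.J g x‖ ^ 2) ^ m * P.nrm (s i) x ^ 2
        ≤ ‖c i‖ ^ 2 * (‖P.J g x‖ ^ 2) ^ m * P.nrm (s i) x ^ 2 := by gcongr
      _ = (‖c i‖ * ‖P.J g x‖ ^ m * P.nrm (s i) x) ^ 2 := by ring
  · intro t ht0 ht1
    have h1 : ∀ k, ∫⁻ w in (P.c k) '' (P.A k),
        ENNReal.ofReal (∑ i, P.nrm (s i) ((P.c k).symm w) ^ 2) ^ (-(t / m)) < ⊤ := by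
      intro k
      have h2 : (P.c k) '' (P.A k) ⊆ (P.c k) '' (P.K k) := image_mono (P.A_sub k)
      have h3 := hlc t ht0 ht1 (P.c k) (P.mem k) ((P.c k) '' (P.K k))
        ((P.K_compact k).image_of_continuousOn ((P.c k).continuousOn.mono (P.K_sub k)))
        (by
          rintro _ ⟨x, hx, rfl⟩
          exact (P.c k).map_source (P.K_sub k hx))
      refine lt_of_le_of_lt ?_ h3
      refine le_trans (le_of_eq ?_) (lintegral_mono_set h2)
      refine setLIntegral_congr_fun (P.meas_image (P.A_meas k) le_rfl) ?_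
      rintro _ ⟨x, hx, rfl⟩
      have e1 : (P.c k).symm (P.c k x) = x := (P.c k).left_inv (P.A_sub_source k hx)
      have e2 : P.r x = P.c k := by rw [Part.r, P.idx_eq hx]
      simp only [e1, Part.nrm, e2]
      congr 1
      rw [ENNReal.ofReal_sum_of_nonneg (fun _ _ => by positivity)]
      refine Finset.sum_congr rfl fun i _ => ?_
      rw [ENNReal.ofReal_pow (norm_nonneg _), ofReal_norm]
    unfold Part.I
    exact (ENNReal.sum_lt_top.2 fun k _ => h1 k).ne

/-- A norm on the spaces of sections, in which pull back by a biholomorphism is bounded. -/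
theorem exists_norm [CompactSpace F] [T2Space F] [IsManifold 𝓘(ℂ, Cn n) 1 F] (m : ℕ) :
    ∃ N : AntiSection (Cn n) F m → ℝ, (∀ s, 0 ≤ N s) ∧
      (∀ e ∈ atlas (Cn n) F, ∀ x ∈ e.source, ∃ K : ℝ, 0 ≤ K ∧ ∀ s : AntiSection (Cn n) F m,
        ‖s.coeff e x‖ ≤ K * N s) ∧
      (∀ g g' : F → F, ContMDiff 𝓘(ℂ, Cn n) 𝓘(ℂ, Cn n) 1 g →
        ContMDiff 𝓘(ℂ, Cn n) 𝓘(ℂ, Cn n) 1 g' → (∀ x, g' (g x) = x) →
        ∃ C : ℝ, 0 ≤ C ∧ ∀ s t : AntiSection (Cn n) F m,
          (∀ e ∈ atlas (Cn n) F, ∀ e' ∈ atlas (Cn n) F, ∀ x ∈ e.source, g x ∈ e'.source →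
            s.coeff e' (g x) = jac g e e' x ^ m * t.coeff e x) → N t ≤ C * N s) := by
  rcases isEmpty_or_nonempty F with hF | hF
  · refine ⟨fun _ => 0, fun _ => le_rfl, fun e he x => (hF.false x).elim, fun g g' _ _ _ =>
      ⟨0, le_rfl, fun s t _ => by simp⟩⟩
  borelize F
  obtain ⟨P⟩ := exists_part (n := n) (F := F)
  have hbdd : ∀ s : AntiSection (Cn n) F m, BddAbove (range (P.nrm s)) := by
    intro s
    obtain ⟨B, hB⟩ := P.nrm_bounded s
    exact ⟨B, by rintro _ ⟨x, rfl⟩; exact hB x⟩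
  have hle : ∀ (s : AntiSection (Cn n) F m) (x : F), P.nrm s x ≤ ⨆ x, P.nrm s x :=
    fun s x => le_ciSup (hbdd s) x
  have hN0 : ∀ s : AntiSection (Cn n) F m, 0 ≤ ⨆ x, P.nrm s x := by
    intro s
    obtain ⟨x0⟩ := hF
    exact (P.nrm_nonneg s x0).trans (hle s x0)
  refine ⟨fun s => ⨆ x, P.nrm s x, hN0, ?_, ?_⟩
  · intro e he x hx
    refine ⟨‖jac id (P.r x) e x‖ ^ m, by positivity, fun s => ?_⟩
    rw [s.compat _ (P.r_mem x) e he x ⟨P.mem_r_source x, hx⟩, norm_mul, norm_pow]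
    exact mul_le_mul_of_nonneg_left (hle s x) (by positivity)
  · intro g g' hg hg' hl
    obtain ⟨C, hC1, hC⟩ := P.J_bound hg'
    refine ⟨√C ^ m, by positivity, fun s t hst => ?_⟩
    refine ciSup_le fun x => ?_
    have h2 : P.J g' (g x) * P.J g x = 1 := by
      have := jac_mul_jac_inv hg hg' hl (P.r_mem x) (P.r_mem (g x)) (P.mem_r_source x)
        (P.mem_r_source (g x))
      rw [P.J_eq, P.J_eq, hl]
      exact this
    have h3 : ‖P.J g' (g x)‖ ≤ √C := Real.le_sqrt_of_sq_le (hC (g x))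
    have h4 : P.nrm s (g x) = ‖P.J g x‖ ^ m * P.nrm t x := by
      unfold Part.nrm
      rw [hst _ (P.r_mem x) _ (P.r_mem (g x)) x (P.mem_r_source x) (P.mem_r_source (g x)),
        P.J_eq]
      simp
    have h5 : ‖P.J g' (g x)‖ * ‖P.J g x‖ = 1 := by rw [← norm_mul, h2, norm_one]
    calc P.nrm t x = (‖P.J g' (g x)‖ * ‖P.J g x‖) ^ m * P.nrm t x := by
          rw [h5, one_pow, one_mul]
      _ = ‖P.J g' (g x)‖ ^ m * P.nrm s (g x) := by rw [h4, mul_pow]; ring
      _ ≤ √C ^ m * ⨆ x, P.nrm s x := by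
          have h6 := P.nrm_nonneg s (g x)
          have h7 := hle s (g x)
          gcongr

end sections

end Vale.Agent.P299.Meas
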