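import Vale.Agent.P299.Invariant
import Vale.Agent.P299.B.Final

/-! The numerical form of the descent theorem (flat twists), and the case without base points. -/

open scoped Manifold ContDiff Topology ENNReal
open Set Filter MeasureTheory

namespace Vale.Agent.P299

section coset

variable {E : Type*} [NormedAddCommGroup E] [NormedSpace ℂ E] [FiniteDimensional ℂ E]
variable {Y : Type*} [TopologicalSpace Y] [ChartedSpace E Y] [IsManifold 𝓘(ℂ, E) ω Y]
variable {m : ℕ}
variable {Γ : Type*} [Group Γ] [MulAction Γ Y]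

/-- **Norm over the cosets**, for semi-invariant sections. -/
theorem exists_coset_semiinvariant [PreconnectedSpace Y] [Nonempty Y]
    (hact : ∀ γ : Γ, ContMDiff 𝓘(ℂ, E) 𝓘(ℂ, E) ω (fun y : Y => γ • y))
    (Γ₀ : Subgroup Γ) [Γ₀.FiniteIndex] (S : AntiSection E Y m) (hS : S.Nonzero)
    (χ : Γ → ℂ) (hinv : ∀ γ ∈ Γ₀, S.IsEigen (fun y => γ • y) (χ γ)) :
    ∃ (k : ℕ) (_ : 1 ≤ k) (T : AntiSection E Y (k * m)), T.Nonzero ∧
      ∀ γ : Γ, ∃ c : ℂ, T.IsEigen (fun y => γ • y) c := by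
  classical
  have : CompleteSpace E := FiniteDimensional.complete ℂ E
  have : Fintype (Γ ⧸ Γ₀) := Fintype.ofFinite _
  let P : Γ ⧸ Γ₀ → AntiSection E Y m := fun q => S.pull (locBihol_smul hact (q.out)⁻¹)
  have key : ∀ (δ : Γ) (q : Γ ⧸ Γ₀), ∀ e ∈ atlas E Y, ∀ e' ∈ atlas E Y, ∀ x ∈ e.source,
      δ • x ∈ e'.source → (P q).coeff e' (δ • x) =
        χ ((q.out)⁻¹ * δ * (((δ⁻¹ • q).out)⁻¹)⁻¹) * (jac (fun y => δ • y) e e' x ^ m *
          (P (δ⁻¹ • q)).coeff e x) := by
    intro δ q e he e' he' x hx hx'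
    set a : Γ := (q.out)⁻¹ with ha
    set b : Γ := ((δ⁻¹ • q).out)⁻¹ with hb
    set h : Γ := a * δ * b⁻¹ with hh
    have hmem : h ∈ Γ₀ := by
      have h1 : ((δ⁻¹ * q.out : Γ) : Γ ⧸ Γ₀) = δ⁻¹ • q := by
        conv_rhs => rw [← Quotient.out_eq' q]
        rfl
      have h2 : (((δ⁻¹ • q).out : Γ) : Γ ⧸ Γ₀) = δ⁻¹ • q := Quotient.out_eq' _
      have h3 := h1.trans h2.symm
      rw [QuotientGroup.eq] at h3
      have h4 : h = (δ⁻¹ * q.out)⁻¹ * (δ⁻¹ • q).out := by
        rw [hh, ha, hb]; group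
      rw [h4]; exact h3
    have e1 : a • δ • x = h • b • x := by
      simp only [hh, smul_smul]; congr 1; group
    set c := chartAt E (a • δ • x) with hc
    set c' := chartAt E (b • x) with hc'
    have hca : c ∈ atlas E Y := chart_mem_atlas _ _
    have hca' : c' ∈ atlas E Y := chart_mem_atlas _ _
    have hcs : a • δ • x ∈ c.source := mem_chart_source _ _
    have hcs' : b • x ∈ c'.source := mem_chart_source _ _
    have hcs2 : h • b • x ∈ c.source := by rw [← e1]; exact hcs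
    have h5 : (P q).coeff e' (δ • x) = S.coeff c (a • δ • x) *
        (jac (fun y => a • y) e' c (δ • x) ^ m)⁻¹ :=
      S.pull_coeff (locBihol_smul hact a) he' hca hx' hcs
    have h6 : (P (δ⁻¹ • q)).coeff e x = S.coeff c' (b • x) *
        (jac (fun y => b • y) e c' x ^ m)⁻¹ :=
      S.pull_coeff (locBihol_smul hact b) he hca' hx hcs'
    have h7 := hinv h hmem c' hca' c hca (b • x) hcs' hcs2
    have h8 := jac_comp (g := fun y : Y => δ • y) (h := fun y : Y => a • y) (hact δ x)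
      (hact a (δ • x)) he he' hca hx hx' hcs
    have h9 := jac_comp (g := fun y : Y => b • y) (h := fun y : Y => h • y) (hact b x)
      (hact h (b • x)) he hca' hca hx hcs' hcs2
    have h10 : ((fun y : Y => h • y) ∘ fun y : Y => b • y) =
        ((fun y : Y => a • y) ∘ fun y : Y => δ • y) := by
      funext y
      simp only [Function.comp_apply, smul_smul, hh]
      congr 1; group
    rw [h10, h8] at h9
    have n1 := pow_ne_zero m ((locBihol_smul hact a).ne_zero e' he' c hca (δ • x) hx' hcs)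
    have n2 := pow_ne_zero m ((locBihol_smul hact b).ne_zero e he c' hca' x hx hcs')
    simp only at h7
    rw [h5, h6, e1, h7]
    have h11 := congrArg (fun z => z ^ m) h9
    simp only [mul_pow] at h11
    field_simp
    linear_combination (χ h * S.coeff c' (b • x)) * (-h11)
  have hfin : 1 ≤ Fintype.card (Γ ⧸ Γ₀) := Fintype.card_pos
  refine ⟨(Finset.univ : Finset (Γ ⧸ Γ₀)).card, hfin, AntiSection.prod Finset.univ P, ?_, ?_⟩
  · refine AntiSection.Nonzero.prod _ fun q _ => AntiSection.Nonzero.pull _ ?_ hS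
    exact MulAction.surjective _
  · intro δ
    refine ⟨∏ q : Γ ⧸ Γ₀, χ ((q.out)⁻¹ * δ * (((δ⁻¹ • q).out)⁻¹)⁻¹), ?_⟩
    intro e he e' he' x hx hx'
    change ∏ q, (P q).coeff e' (δ • x) = _ * _ ^ _ * ∏ q, (P q).coeff e x
    have h1 : ∏ q, (P q).coeff e' (δ • x) =
        ∏ q, (χ ((q.out)⁻¹ * δ * (((δ⁻¹ • q).out)⁻¹)⁻¹) *
          (jac (fun y => δ • y) e e' x ^ m * (P (δ⁻¹ • q)).coeff e x)) :=
      Finset.prod_congr rfl fun q _ => key δ q e he e' he' x hx hx'
    rw [h1, Finset.prod_mul_distrib, Finset.prod_mul_distrib, Finset.prod_const, ← pow_mul,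
      mul_comm m, mul_assoc]
    congr 2
    exact Equiv.prod_comp (MulAction.toPerm δ⁻¹) (fun q => (P q).coeff e x)

/-- The eigenvalues of a nonzero semi-invariant section form a character. -/
theorem exists_character [PreconnectedSpace Y]
    (hact : ∀ γ : Γ, ContMDiff 𝓘(ℂ, E) 𝓘(ℂ, E) ω (fun y : Y => γ • y))
    (T : AntiSection E Y m) (hT : T.Nonzero)
    (h : ∀ γ : Γ, ∃ c : ℂ, T.IsEigen (fun y => γ • y) c) :
    ∃ χ : Γ →* ℂˣ, ∀ γ : Γ, T.IsEigen (fun y => γ • y) (χ γ) := by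
  have : CompleteSpace E := FiniteDimensional.complete ℂ E
  choose c hc using h
  -- uniqueness of the eigenvalue
  have huniq : ∀ (g : Y → Y) (a b : ℂ), LocBihol E g → T.IsEigen g a → T.IsEigen g b → a = b := by
    intro g a b hg ha hb
    obtain ⟨e, he, x, hx, hn⟩ := hT
    have h1 := ha e he _ (chart_mem_atlas E (g x)) x hx (mem_chart_source E (g x))
    have h2 := hb e he _ (chart_mem_atlas E (g x)) x hx (mem_chart_source E (g x))
    have h3 := pow_ne_zero m (hg.ne_zero e he _ (chart_mem_atlas E (g x)) x hx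
      (mem_chart_source E (g x)))
    rw [h1] at h2
    exact mul_right_cancel₀ h3 (mul_right_cancel₀ hn h2)
  have hone : T.IsEigen (fun y => (1 : Γ) • y) 1 := by
    intro e he e' he' x hx hx'
    simp only [one_smul] at hx' ⊢
    rw [one_mul]
    exact T.compat e he e' he' x ⟨hx, hx'⟩
  have h1 : c 1 = 1 := huniq _ _ _ (locBihol_smul hact 1) (hc 1) hone
  have hmul : ∀ γ δ, c (γ * δ) = c γ * c δ := by
    intro γ δ
    have h2 : T.IsEigen ((fun y => γ • y) ∘ (fun y => δ • y)) (c γ * c δ) :=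
      AntiSection.IsEigen.comp (hc δ) (hc γ) (hact δ) (hact γ)
    have h3 : ((fun y : Y => γ • y) ∘ (fun y => δ • y)) = fun y => (γ * δ) • y := by
      funext y; simp [mul_smul]
    rw [h3] at h2
    exact huniq _ _ _ (locBihol_smul hact (γ * δ)) (hc (γ * δ)) h2
  let χ₀ : Γ →* ℂ := { toFun := c, map_one' := h1, map_mul' := hmul }
  refine ⟨χ₀.toHomUnits, fun γ => ?_⟩
  rw [MonoidHom.coe_toHomUnits]
  exact hc γ

end coset

/-- A family without common zeros is log canonical. -/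
theorem isLC_of_no_common_zero {n : ℕ} {F : Type*} [TopologicalSpace F]
    [ChartedSpace (Fin n → ℂ) F] {m : ℕ} {ι : Type*} [Fintype ι]
    (s : ι → AntiSection (Fin n → ℂ) F m)
    (h : ∀ e ∈ atlas (Fin n → ℂ) F, ∀ x ∈ e.source, ∃ i, (s i).coeff e x ≠ 0) : IsLC s := by
  intro c hc0 hc1 e he K hK hKe
  set f : (Fin n → ℂ) → ℝ := fun z => ∑ i, ‖(s i).coeff e (e.symm z)‖ ^ 2 with hf
  have hcont : ContinuousOn f K := by
    refine continuousOn_finsetSum _ fun i _ => ?_
    exact ((((s i).holo e he).continuousOn.mono hKe).norm).pow 2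
  have hpos : ∀ z ∈ K, 0 < f z := by
    intro z hz
    obtain ⟨i, hi⟩ := h e he (e.symm z) (e.map_target (hKe hz))
    refine Finset.sum_pos' (fun _ _ => by positivity) ⟨i, Finset.mem_univ i, ?_⟩
    have : 0 < ‖(s i).coeff e (e.symm z)‖ := norm_pos_iff.2 hi
    positivity
  rcases K.eq_empty_or_nonempty with rfl | hne
  · simp
  obtain ⟨z0, hz0, hmin⟩ := hK.exists_isMinOn hne hcont
  set δ := f z0 with hδ
  have hδ0 : 0 < δ := hpos z0 hz0
  have hp : 0 ≤ c / m := by positivity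
  have h1 : ∀ z ∈ K, (∑ i, ‖(s i).coeff e (e.symm z)‖ₑ ^ 2) ^ (-(c / m)) ≤
      ENNReal.ofReal δ ^ (-(c / m)) := by
    intro z hz
    have h2 : ENNReal.ofReal δ ≤ ∑ i, ‖(s i).coeff e (e.symm z)‖ₑ ^ 2 := by
      have h3 : δ ≤ f z := hmin hz
      refine (ENNReal.ofReal_le_ofReal h3).trans (le_of_eq ?_)
      rw [hf]
      simp only
      rw [ENNReal.ofReal_sum_of_nonneg (fun _ _ => by positivity)]
      refine Finset.sum_congr rfl fun i _ => ?_
      rw [ENNReal.ofReal_pow (norm_nonneg _), ofReal_norm]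
    rw [ENNReal.rpow_neg, ENNReal.rpow_neg, ENNReal.inv_le_inv]
    exact ENNReal.rpow_le_rpow h2 hp
  calc ∫⁻ z in K, (∑ i, ‖(s i).coeff e (e.symm z)‖ₑ ^ 2) ^ (-(c / m))
      ≤ ∫⁻ z in K, ENNReal.ofReal δ ^ (-(c / m)) := setLIntegral_mono' hK.measurableSet h1
    _ = ENNReal.ofReal δ ^ (-(c / m)) * volume K := by rw [setLIntegral_const]
    _ < ⊤ := by
      refine ENNReal.mul_lt_top ?_ hK.measure_lt_top
      rw [ENNReal.ofReal_rpow_of_pos hδ0]
      exact ENNReal.ofReal_lt_top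

end Vale.Agent.P299
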