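import Vale.Agent.P299.B.Numeric
import Vale.Agent.P299.B.Assembly

/-! The numerical form of the descent theorem. -/

open scoped Manifold ContDiff Topology
open Set Filter

namespace Vale.Agent.P299

attribute [local instance] prodCS

variable {E : Type*} [NormedAddCommGroup E] [NormedSpace ℂ E] [FiniteDimensional ℂ E]
variable {n r : ℕ}
variable {M : Type*} [TopologicalSpace M] [ChartedSpace E M] [IsManifold 𝓘(ℂ, E) ω M]
variable {F : Type*} [TopologicalSpace F] [ChartedSpace (Fin n → ℂ) F]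
  [IsManifold 𝓘(ℂ, Fin n → ℂ) ω F]

/-- A nonzero section on `M × F` restricts to a nonzero section on some slice `{x} × F`. -/
theorem exists_slice {N : ℕ} (t : AntiSection (E × (Fin n → ℂ)) (M × F) N) (ht : t.Nonzero) :
    ∃ s : AntiSection (Fin n → ℂ) F N, s.Nonzero := by
  obtain ⟨_, ⟨e₁, he₁, e₂, he₂, rfl⟩, ⟨x, y⟩, ⟨hx, hy⟩, hn⟩ := ht
  change x ∈ e₁.source at hx
  change y ∈ e₂.source at hy
  refine ⟨{ coeff := fun e z => t.coeff (e₁.prod e) (x, z), holo := ?_, compat := ?_ },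
    e₂, he₂, y, hy, hn⟩
  · intro e he z hz
    have h1 : AnalyticAt ℂ (t.coeff (e₁.prod e) ∘ (e₁.prod e).symm) (e₁ x, z) :=
      t.holo (e₁.prod e) ⟨e₁, he₁, e, he, rfl⟩ (e₁ x, z) ⟨e₁.map_source hx, hz⟩
    have h2 : AnalyticAt ℂ (fun z : Fin n → ℂ => (e₁ x, z)) z :=
      analyticAt_const.prod analyticAt_id
    have h3 := h1.comp_of_eq (f := fun z : Fin n → ℂ => (e₁ x, z)) h2 rfl
    refine h3.congr (Filter.Eventually.of_forall fun w => ?_)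
    change t.coeff (e₁.prod e) (e₁.symm (e₁ x), e.symm w) = t.coeff (e₁.prod e) (x, e.symm w)
    rw [e₁.left_inv hx]
  · intro e he e' he' z hz
    have h1 := t.compat (e₁.prod e) ⟨e₁, he₁, e, he, rfl⟩ (e₁.prod e') ⟨e₁, he₁, e', he', rfl⟩
      (x, z) ⟨⟨hx, hz.1⟩, ⟨hx, hz.2⟩⟩
    rw [jac_id_prod he₁ he₁ he he' hx hz.1 hx hz.2] at h1
    have h2 : jac (id : M → M) e₁ e₁ x = 1 := jac_id_self hx
    rw [h2, one_mul] at h1
    exact h1

/-- The numerical form: no condition on the singularities of the section on `F`. -/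
theorem descent_flat [CompactSpace F] [T2Space F] [ConnectedSpace M] [ConnectedSpace F]
    {Γ : Type*} [Group Γ] [MulAction Γ (M × F)]
    (hact : ∀ γ : Γ, ContMDiff (𝓘(ℂ, E).prod 𝓘(ℂ, Fin n → ℂ)) (𝓘(ℂ, E).prod 𝓘(ℂ, Fin n → ℂ)) ω
      (fun y : M × F => γ • y))
    {k : ℕ} (hk : 1 ≤ k) (η : AntiSection E M k) (hη : η.Nonzero)
    (T : TorusAction r (Fin n → ℂ) F)
    (Γ₀ : Subgroup Γ) [Γ₀.FiniteIndex]
    (hΓ₀ : ∀ γ ∈ Γ₀, ∃ (h : M → M) (w : Fin r → ℂ), ContMDiff 𝓘(ℂ, E) 𝓘(ℂ, E) ω h ∧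
      (∀ x y, γ • (x, y) = (h x, T.act w y)) ∧ ∃ c : ℂ, η.IsEigen h c)
    {m : ℕ} (hm : 1 ≤ m) (s : AntiSection (Fin n → ℂ) F m) (hs : s.Nonzero) :
    ∃ (N : ℕ) (_ : 1 ≤ N) (χ : Γ →* ℂˣ) (t : AntiSection (E × (Fin n → ℂ)) (M × F) N),
      t.Nonzero ∧ ∀ γ : Γ, t.IsEigen (fun y => γ • y) (χ γ) := by
  have := prod_isManifold (E₁ := E) (E₂ := Fin n → ℂ) (M := M) (F := F)
  -- a nonzero weight vector
  obtain ⟨ι, _, t, χ, h1, h2⟩ := T.exists_weights s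
  obtain ⟨e, he, x, hx, hn⟩ := hs
  rw [h1 e he x hx] at hn
  change ∑ a, (t a).coeff e x ≠ 0 at hn
  obtain ⟨a, -, ha⟩ := Finset.exists_ne_zero_of_sum_ne_zero hn
  have hu : (t a).Nonzero := ⟨e, he, x, hx, ha⟩
  have hcomm : k * m = m * k := Nat.mul_comm k m
  have hu2 : (((t a).pow k).cast hcomm).Nonzero := by
    obtain ⟨e, he, x, hx, hn⟩ := hu.pow k
    exact ⟨e, he, x, hx, hn⟩
  set S : AntiSection (E × (Fin n → ℂ)) (M × F) (m * k) :=
    (η.pow m).box (((t a).pow k).cast hcomm) with hS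
  have hSn : S.Nonzero := (hη.pow m).box hu2
  have hact' : ∀ γ : Γ, ContMDiff 𝓘(ℂ, E × (Fin n → ℂ)) 𝓘(ℂ, E × (Fin n → ℂ)) ω
      (fun y : M × F => γ • y) := by
    rw [modelWithCornersSelf_prod]
    exact hact
  have hex : ∀ γ ∈ Γ₀, ∃ c : ℂ, S.IsEigen (fun y => γ • y) c := by
    intro γ hγ
    obtain ⟨h, w, hh, heq, c, hηh⟩ := hΓ₀ γ hγ
    have h3 := AntiSection.IsEigen.box hh (T.contMDiff_act w) (hηh.pow' m)
      (((h2 a w).pow' k).cast' hcomm)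
    have h4 : (fun y : M × F => γ • y) = Prod.map h (T.act w) := by
      funext ⟨x, y⟩
      exact heq x y
    rw [h4]
    exact ⟨_, h3⟩
  have hex' : ∀ γ : Γ, ∃ c : ℂ, γ ∈ Γ₀ → S.IsEigen (fun y => γ • y) c := by
    intro γ
    by_cases h : γ ∈ Γ₀
    · obtain ⟨c, hc⟩ := hex γ h
      exact ⟨c, fun _ => hc⟩
    · exact ⟨0, fun h' => absurd h' h⟩
  choose c hc using hex'
  obtain ⟨k', hk', T', hT', hT''⟩ := exists_coset_semiinvariant hact' Γ₀ S hSn c hc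
  obtain ⟨χ', hχ'⟩ := exists_character hact' T' hT' hT''
  exact ⟨k' * (m * k), Nat.mul_pos hk' (Nat.mul_pos hm hk), χ', T', hT', hχ'⟩

end Vale.Agent.P299
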