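import Vale.Agent.P299.B.NumericDescent

/-! A base point free power gives a log canonical family. -/

open scoped Manifold ContDiff Topology
open Set Filter

namespace Vale.Agent.P299

/-- If every point has a section of `-mK_F` not vanishing there, then finitely many sections of
`-mK_F` have no common zero, so they form a log canonical family. -/
theorem exists_lc_of_free {n : ℕ} {F : Type*} [TopologicalSpace F] [ChartedSpace (Fin n → ℂ) F]
    [IsManifold 𝓘(ℂ, Fin n → ℂ) ω F] [CompactSpace F] {m : ℕ}
    (h : ∀ x : F, ∃ s : AntiSection (Fin n → ℂ) F m, ∃ e ∈ atlas (Fin n → ℂ) F,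
      x ∈ e.source ∧ s.coeff e x ≠ 0) :
    ∃ (N : ℕ) (s : Fin N → AntiSection (Fin n → ℂ) F m), IsLC s := by
  classical
  choose s e he hx hs using h
  -- the set where `s x` does not vanish, in the chart `e x`
  let U : F → Set F := fun x => {y | y ∈ (e x).source ∧ (s x).coeff (e x) y ≠ 0}
  have hU : ∀ x, U x ∈ 𝓝 x := by
    intro x
    have h1 : ContinuousOn ((s x).coeff (e x) ∘ (e x).symm) (e x).target :=
      ((s x).holo (e x) (he x)).continuousOn
    have h2 : ContinuousOn (((s x).coeff (e x) ∘ (e x).symm) ∘ (e x)) (e x).source :=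
      h1.comp (e x).continuousOn (e x).mapsTo
    have h3 : ContinuousOn ((s x).coeff (e x)) (e x).source := by
      refine h2.congr fun y hy => ?_
      simp [(e x).left_inv hy]
    have h4 : ContinuousAt ((s x).coeff (e x)) x := h3.continuousAt ((e x).open_source.mem_nhds (hx x))
    filter_upwards [(e x).open_source.mem_nhds (hx x), h4.eventually_ne (hs x)] with y h5 h6
    exact ⟨h5, h6⟩
  obtain ⟨A, hA⟩ := isCompact_univ.elim_nhds_subcover U (fun x _ => hU x)
  refine ⟨Fintype.card A, fun i => s ((Fintype.equivFin A).symm i).1, ?_⟩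
  refine isLC_of_no_common_zero _ ?_
  intro e' he' y hy
  obtain ⟨x, hxA, hyU⟩ := Set.mem_iUnion₂.1 (hA.2 (mem_univ y))
  refine ⟨Fintype.equivFin A ⟨x, hxA⟩, ?_⟩
  simp only [Equiv.symm_apply_apply]
  rw [(s x).compat (e x) (he x) e' he' y ⟨hyU.1, hy⟩]
  exact mul_ne_zero (pow_ne_zero _ (jac_id_ne_zero (he x) he' hyU.1 hy)) hyU.2

end Vale.Agent.P299
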